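import Vale.Agent.P207Z.An.Lim

/-!
# Peano existence, interpolation from dense sets, gluing of local approximations
-/

open Set Metric Filter Topology MeasureTheory
open scoped ContDiff Nat NNReal BoundedContinuousFunction

noncomputable section

namespace Vale.Agent.P207Z.An

universe u

/-- delayed approximate solutions -/
theorem exists_delay {F : Type*} [NormedAddCommGroup F] [NormedSpace ℝ F] [CompleteSpace F]
    {a : ℝ → F → F} (ha : Continuous fun p : ℝ × F => a p.1 p.2) {M : ℝ≥0}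
    (hM : ∀ t x, ‖a t x‖ ≤ M) (s0 : F) (T : ℝ) {δ : ℝ} (hδ : 0 < δ) :
    ∃ s : ℝ → F, LipschitzWith M s ∧ s 0 = s0 ∧
      ∀ t ∈ Icc 0 T, ‖s t - (s0 + ∫ τ in (0 : ℝ)..t, a τ (s τ))‖ ≤ M * δ := by
  let Φ : (ℝ → F) → ℝ → F := fun s t => s0 + ∫ τ in (0 : ℝ)..max (t - δ) 0, a τ (s τ)
  have hint : ∀ s : ℝ → F, Continuous s → ∀ p q,
      ‖(∫ τ in (0 : ℝ)..p, a τ (s τ)) - ∫ τ in (0 : ℝ)..q, a τ (s τ)‖ ≤ M * |p - q| := by
    intro s hs p q
    have hc : Continuous fun τ => a τ (s τ) := ha.comp (continuous_id.prodMk hs)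
    rw [intervalIntegral.integral_interval_sub_left (hc.intervalIntegrable _ _)
      (hc.intervalIntegrable _ _)]
    exact intervalIntegral.norm_integral_le_of_norm_le_const fun τ _ => hM _ _
  have hΦ : ∀ s : ℝ → F, Continuous s → LipschitzWith M (Φ s) := fun s hs =>
    LipschitzWith.of_dist_le_mul fun p q => by
      simp only [Φ]
      rw [dist_add_left, dist_eq_norm, Real.dist_eq]
      refine (hint s hs _ _).trans (mul_le_mul_of_nonneg_left ?_ M.2)
      have := abs_max_sub_max_le_abs (p - δ) (q - δ) 0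
      rwa [sub_sub_sub_cancel_right] at this
  have hΦ0 : ∀ s t, t ≤ 0 → Φ s t = s0 := fun s t ht => by
    simp only [Φ]
    rw [max_eq_right (by linarith), intervalIntegral.integral_same, add_zero]
  have hc : ∀ k : ℕ, Continuous (Φ^[k] fun _ => s0) := fun k => by
    induction k with
    | zero => exact continuous_const
    | succ k ih => rw [Function.iterate_succ_apply']; exact (hΦ _ ih).continuous
  have hst : ∀ k : ℕ, ∀ t ≤ k * δ, Φ (Φ^[k] fun _ => s0) t = (Φ^[k] fun _ => s0) t := fun k => by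
    induction k with
    | zero => intro t ht; exact hΦ0 _ t (by simpa using ht)
    | succ k ih =>
      intro t ht
      rw [Function.iterate_succ_apply']
      simp only [Φ]
      congr 1
      refine intervalIntegral.integral_congr fun τ hτ => ?_
      rw [uIcc_of_le (le_max_right _ _)] at hτ
      have h1 : τ ≤ k * δ := hτ.2.trans (max_le (by push_cast at ht; linarith) (by positivity))
      exact congrArg (a τ) (ih τ h1)
  obtain ⟨k, hk⟩ := exists_nat_ge (T / δ)
  rw [div_le_iff₀ hδ] at hk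
  refine ⟨Φ^[k + 1] fun _ => s0, ?_, ?_, fun t ht => ?_⟩
  · rw [Function.iterate_succ_apply']; exact hΦ _ (hc k)
  · rw [Function.iterate_succ_apply']; exact hΦ0 _ 0 le_rfl
  · rw [← hst (k + 1) t (by push_cast; linarith [ht.2])]
    simp only [Φ]
    rw [add_sub_add_left_eq_sub]
    refine (hint _ (hc (k + 1)) _ _).trans (mul_le_mul_of_nonneg_left ?_ M.2)
    rw [abs_le]
    constructor
    · linarith [le_max_left (t - δ) 0]
    · linarith [max_le (by linarith : t - δ ≤ t) ht.1]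

/-- Peano's existence theorem -/
theorem peano {F : Type*} [NormedAddCommGroup F] [NormedSpace ℝ F] [FiniteDimensional ℝ F]
    {a : ℝ → F → F} {T M : ℝ} (ha : ContinuousOn (fun p : ℝ × F => a p.1 p.2) (Icc 0 T ×ˢ univ))
    (hM : ∀ t ∈ Icc 0 T, ∀ x, ‖a t x‖ ≤ M) (s0 : F) :
    ∃ s : ℝ → F, s 0 = s0 ∧ ∀ t ∈ Icc 0 T, HasDerivWithinAt s (a t (s t)) (Icc 0 T) t := by
  rcases lt_or_ge T 0 with hT | hT
  · exact ⟨fun _ => s0, rfl, fun t ht => absurd (ht.1.trans ht.2) (not_le.2 hT)⟩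
  have : ProperSpace F := FiniteDimensional.proper ℝ F
  have : CompleteSpace F := FiniteDimensional.complete ℝ F
  lift M to ℝ≥0 using (norm_nonneg _).trans (hM 0 ⟨le_rfl, hT⟩ s0)
  let b : ℝ → F → F := fun t x => a (projIcc 0 T hT t) x
  have hb : Continuous fun p : ℝ × F => b p.1 p.2 :=
    ha.comp_continuous (f := fun p : ℝ × F => (((projIcc 0 T hT p.1 : Icc 0 T) : ℝ), p.2))
      ((continuous_subtype_val.comp (continuous_projIcc.comp continuous_fst)).prodMk continuous_snd)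
      fun p => ⟨(projIcc 0 T hT p.1).2, mem_univ _⟩
  have hbM : ∀ t x, ‖b t x‖ ≤ M := fun t x => hM _ (projIcc 0 T hT t).2 x
  choose s hs1 hs2 hs3 using fun n : ℕ =>
    exists_delay hb hbM s0 T (δ := 1 / ((n : ℝ) + 1)) (by positivity)
  let f : ℕ → (Icc (0 : ℝ) T →ᵇ F) := fun n => BoundedContinuousFunction.mkOfCompact
    ⟨fun t => s n t, (hs1 n).continuous.comp continuous_subtype_val⟩
  have hK := BoundedContinuousFunction.arzela_ascoli (closedBall s0 (M * T))
    (isCompact_closedBall _ _) (range f) (by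
      rintro _ t ⟨n, rfl⟩
      have := (hs1 n).dist_le_mul t 0
      rw [hs2, Real.dist_eq, sub_zero, abs_of_nonneg t.2.1] at this
      exact this.trans (mul_le_mul_of_nonneg_left t.2.2 M.2))
    (LipschitzWith.uniformEquicontinuous _ M (by
      rintro ⟨_, n, rfl⟩
      exact LipschitzWith.of_dist_le_mul fun p q => (hs1 n).dist_le_mul p q)).equicontinuous
  obtain ⟨g, -, ψ, hψ, hlim⟩ := hK.tendsto_subseq (x := f) fun n => subset_closure ⟨n, rfl⟩
  let σ : ℝ → F := fun t => g (projIcc 0 T hT t)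
  have hσ : Continuous σ := g.continuous.comp continuous_projIcc
  have hp : ∀ t ∈ Icc 0 T, Tendsto (fun n => s (ψ n) t) atTop (𝓝 (σ t)) := fun t ht => by
    have := ((continuous_eval_const (⟨t, ht⟩ : Icc (0 : ℝ) T)).tendsto g).comp hlim
    simp only [σ, projIcc_of_mem hT ht]
    exact this
  have hc : Continuous fun τ => b τ (σ τ) := hb.comp (continuous_id.prodMk hσ)
  have heq : ∀ t ∈ Icc 0 T, σ t = s0 + ∫ τ in (0 : ℝ)..t, b τ (σ τ) := fun t ht => by
    have h1 : Tendsto (fun n => ∫ τ in (0 : ℝ)..t, b τ (s (ψ n) τ)) atTop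
        (𝓝 (∫ τ in (0 : ℝ)..t, b τ (σ τ))) :=
      intervalIntegral.tendsto_integral_filter_of_dominated_convergence (fun _ => M)
        (Eventually.of_forall fun n =>
          (hb.comp (continuous_id.prodMk (hs1 (ψ n)).continuous)).aestronglyMeasurable)
        (Eventually.of_forall fun n => Eventually.of_forall fun τ _ => hbM _ _)
        intervalIntegrable_const (Eventually.of_forall fun τ hτ => by
          rw [uIoc_of_le ht.1] at hτ
          exact (hb.tendsto (τ, σ τ)).comp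
            (tendsto_const_nhds.prodMk_nhds (hp τ ⟨hτ.1.le, hτ.2.trans ht.2⟩)))
    have h2 := ((hp t ht).sub (h1.const_add s0)).norm
    have h3 : Tendsto (fun n => (M : ℝ) * (1 / ((ψ n : ℝ) + 1))) atTop (𝓝 (M * 0)) :=
      (tendsto_one_div_add_atTop_nhds_zero_nat.comp hψ.tendsto_atTop).const_mul _
    have h4 := le_of_tendsto_of_tendsto' h2 h3 fun n => hs3 (ψ n) t ht
    rw [mul_zero, norm_le_zero_iff, sub_eq_zero] at h4
    exact h4
  refine ⟨σ, by rw [heq 0 ⟨le_rfl, hT⟩, intervalIntegral.integral_same, add_zero], fun t ht => ?_⟩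
  have h1 := ((hc.integral_hasStrictDerivAt 0 t).hasDerivAt.const_add s0).hasDerivWithinAt
    (s := Icc 0 T)
  have h2 : b t (σ t) = a t (σ t) := by simp only [b, projIcc_of_mem hT ht]
  rw [h2] at h1
  exact h1.congr heq (heq t ht)

/-- Interpolation from a dense subset of a ball -/
theorem interp (r : ℕ) : ∃ C c : ℝ, 0 < C ∧ 0 < c ∧ ∀ {F W : Type u} [NormedAddCommGroup F]
    [NormedSpace ℝ F] [FiniteDimensional ℝ F] [NormedAddCommGroup W] [NormedSpace ℝ W]
    (g : F → W) (x : F) (δ a b : ℝ) (G : Set F), 0 < δ →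
    (∀ y ∈ closedBall x δ, ContDiffAt ℝ (r + 1 : ℕ) g y) →
    (∀ y ∈ closedBall x δ, ‖iteratedFDeriv ℝ (r + 1) g y‖ ≤ b) →
    (∀ y ∈ G ∩ closedBall x δ, ‖g y‖ ≤ a) →
    (∀ z ∈ closedBall x δ, ∃ y ∈ G ∩ closedBall x δ, dist z y ≤ c * δ) →
    (∀ z ∈ closedBall x δ, ‖g z‖ ≤ 2 * a + b * δ ^ (r + 1)) ∧
      ∀ i ≤ r + 1, ‖iteratedFDeriv ℝ i g x‖ * δ ^ i ≤ C * (a + b * δ ^ (r + 1)) := by
  obtain ⟨D, hD1, hD⟩ := lk_ball.{u} (r + 1)
  have hL : 0 < r * D + 1 := by positivity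
  refine ⟨2 * D, 1 / (2 * (r * D + 1)), by positivity, by positivity,
    fun {F W} _ _ _ _ _ g x δ a b G hδ hg hb ha hG => ?_⟩
  have : ProperSpace F := FiniteDimensional.proper ℝ F
  have hx := mem_closedBall_self (x := x) hδ.le
  obtain ⟨z, hz, hmax⟩ := (isCompact_closedBall x δ).exists_isMaxOn ⟨x, hx⟩
    (f := fun y => ‖g y‖) fun y hy => (hg y hy).continuousAt.norm.continuousWithinAt
  have h1 := hD g x δ ‖g z‖ b hδ hg (fun y hy => hmax hy) hb
  have hb0 : 0 ≤ b := (norm_nonneg _).trans (hb x hx)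
  set S := ‖g z‖ + b * δ ^ (r + 1) with hS
  have hS0 : 0 ≤ S := by positivity
  have hd : ∀ y ∈ closedBall x δ, ‖fderiv ℝ g y‖ ≤ (r * D + 1) * S / δ := fun y hy => by
    have hv : ‖y - x‖ ≤ δ := by rw [← dist_eq_norm]; exact hy
    have hm : ∀ t ∈ Icc (0 : ℝ) 1, x + t • (y - x) ∈ closedBall x δ := fun t ht =>
      (convex_closedBall x δ).add_smul_sub_mem hx hy ht
    have hj : ∀ (j : ℕ) (w : F), ‖iteratedFDeriv ℝ j (fderiv ℝ g) w fun _ => y - x‖ ≤
        ‖iteratedFDeriv ℝ (j + 1) g w‖ * δ ^ j := fun j w => by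
      refine (ContinuousMultilinearMap.le_opNorm _ _).trans ?_
      rw [norm_iteratedFDeriv_fderiv, Finset.prod_const, Finset.card_univ, Fintype.card_fin]
      gcongr
    have h2 := (chain_line (K := r) (g := fderiv ℝ g) (x := x) (v := y - x) (s := Icc 0 1)
      fun t ht => (hg _ (hm t ht)).fderiv_right (by push_cast; exact le_rfl)).taylor
      (convex_Icc 0 1) (B := b * δ ^ r)
      (fun t ht => (hj r _).trans (mul_le_mul_of_nonneg_right (hb _ (hm t ht)) (by positivity)))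
      (left_mem_Icc.2 zero_le_one) (right_mem_Icc.2 zero_le_one)
    simp only [one_smul, add_sub_cancel, iteratedFDeriv_zero_apply, sub_zero, one_pow, zero_smul,
      add_zero, abs_one, mul_one] at h2
    have h3 : ‖∑ i ∈ Finset.range r, (1 / (i ! : ℝ)) •
        iteratedFDeriv ℝ i (fderiv ℝ g) x fun _ => y - x‖ ≤ r * (D * S / δ) := by
      refine (norm_sum_le _ _).trans ((Finset.sum_le_card_nsmul _ _ (D * S / δ)
        fun i hi => ?_).trans (by simp))
      have h4 : ‖(1 / (i ! : ℝ))‖ ≤ 1 := by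
        rw [Real.norm_eq_abs, abs_of_nonneg (by positivity), div_le_one (by positivity)]
        exact_mod_cast i.factorial_pos
      rw [norm_smul]
      refine (mul_le_of_le_one_left (norm_nonneg _) h4).trans ((hj i x).trans ?_)
      rw [le_div_iff₀ hδ, mul_assoc, ← pow_succ]
      exact h1 (i + 1) (by have := Finset.mem_range.1 hi; omega)
    have h5 := norm_le_insert' (fderiv ℝ g y) (∑ i ∈ Finset.range r, (1 / (i ! : ℝ)) •
        iteratedFDeriv ℝ i (fderiv ℝ g) x fun _ => y - x)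
    have h6 : b * δ ^ r ≤ S / δ := by
      rw [le_div_iff₀ hδ, mul_assoc, ← pow_succ, hS]; linarith [norm_nonneg (g z)]
    have h7 : (r * D + 1) * S / δ = r * (D * S / δ) + S / δ := by ring
    linarith
  obtain ⟨y, hy, hzy⟩ := hG z hz
  have h2 := (convex_closedBall x δ).norm_image_sub_le_of_norm_fderiv_le (𝕜 := ℝ)
    (fun y hy => (hg y hy).differentiableAt (by exact_mod_cast Nat.succ_ne_zero r)) hd hy.2 hz
  rw [← dist_eq_norm z y] at h2
  have h3 : (r * D + 1) * S / δ * dist z y ≤ S / 2 :=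
    (mul_le_mul_of_nonneg_left hzy (by positivity)).trans (le_of_eq (by field_simp))
  have h4 := norm_le_insert' (g z) (g y)
  have h5 := ha y hy
  have h6 : ‖g z‖ ≤ 2 * a + b * δ ^ (r + 1) := by linarith
  refine ⟨fun w hw => le_trans (hmax hw) h6, fun i hi => (h1 i hi).trans ?_⟩
  have h7 : S ≤ 2 * (a + b * δ ^ (r + 1)) := by linarith
  have := mul_le_mul_of_nonneg_left h7 (by linarith : 0 ≤ D)
  linarith

/-- compatible local approximations at the scales `R * ρ ^ n` -/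
structure Glue {F W : Type*} [NormedAddCommGroup F] [NormedSpace ℝ F] [NormedAddCommGroup W]
    [NormedSpace ℝ W] (k : ℕ) (O : Set F) (R ρ γ C : ℝ) (Q : ℕ → F → F → W) : Prop where
  smooth : ∀ n, ∀ y ∈ O, ∀ z ∈ ball y (R * ρ ^ n), ContDiffAt ℝ (k + 1 : ℕ) (Q n y) z
  same : ∀ n, ∀ y ∈ O, ∀ y' ∈ O, y' ∈ ball y (R * ρ ^ n) → ∀ i ≤ k,
    ‖iteratedFDeriv ℝ i (Q n y) y' - iteratedFDeriv ℝ i (Q n y') y'‖ ≤ C * γ ^ n
  next : ∀ n, ∀ y ∈ O, ∀ z ∈ ball y (R * ρ ^ (n + 1)), ∀ i ≤ k + 1,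
    ‖iteratedFDeriv ℝ i (Q n y) z - iteratedFDeriv ℝ i (Q (n + 1) y) z‖ ≤ C * γ ^ n
  bd : ∀ y ∈ O, ∀ z ∈ ball y R, ∀ i ≤ k + 1, ‖iteratedFDeriv ℝ i (Q 0 y) z‖ ≤ C

section Glue

variable {F W : Type*} [NormedAddCommGroup F] [NormedSpace ℝ F] [NormedAddCommGroup W]
  [NormedSpace ℝ W] {k : ℕ} {O : Set F} {R ρ γ C : ℝ} {Q : ℕ → F → F → W}

theorem norm_sub_zero' (f g : F → W) (y : F) :
    ‖iteratedFDeriv ℝ 0 f y - iteratedFDeriv ℝ 0 g y‖ = ‖f y - g y‖ := by
  rw [iteratedFDeriv_zero_eq_comp, iteratedFDeriv_zero_eq_comp, Function.comp, Function.comp,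
    ← map_sub, LinearIsometryEquiv.norm_map]

theorem dist_succ (i : ℕ) (f g : F → W) (y z : F) :
    ‖iteratedFDeriv ℝ (i + 1) f y - iteratedFDeriv ℝ (i + 1) g z‖ =
      ‖iteratedFDeriv ℝ i (fderiv ℝ f) y - iteratedFDeriv ℝ i (fderiv ℝ g) z‖ := by
  rw [iteratedFDeriv_succ_eq_comp_right, iteratedFDeriv_succ_eq_comp_right, ← dist_eq_norm,
    ← dist_eq_norm]
  exact (continuousMultilinearCurryRightEquiv' ℝ i F W).symm.dist_map _ _

theorem Glue.fderiv (h : Glue (k + 1) O R ρ γ C Q) :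
    Glue k O R ρ γ C fun n y => fderiv ℝ (Q n y) :=
  ⟨fun n y hy z hz => (h.smooth n y hy z hz).fderiv_right (by push_cast; exact le_rfl),
    fun n y hy y' hy' hz i hi => by rw [← dist_succ]; exact h.same n y hy y' hy' hz _ (by omega),
    fun n y hy z hz i hi => by rw [← dist_succ]; exact h.next n y hy z hz _ (by omega),
    fun y hy z hz i hi => by rw [norm_iteratedFDeriv_fderiv]; exact h.bd y hy z hz _ (by omega)⟩

theorem Glue.bound (h : Glue k O R ρ γ C Q) (hR : 0 < R) (hρ : 0 < ρ) (hρ1 : ρ < 1) (hγ : 0 ≤ γ)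
    (hγ1 : γ < 1) {y : F} (hy : y ∈ O) {i : ℕ} (hi : i ≤ k + 1) (n : ℕ) :
    ∀ z ∈ ball y (R * ρ ^ n), ‖iteratedFDeriv ℝ i (Q n y) z‖ ≤ C + C / (1 - γ) := by
  have hC : 0 ≤ C := (norm_nonneg _).trans (h.bd y hy y (mem_ball_self hR) 0 (by omega))
  have h1 : ∀ z ∈ ball y (R * ρ ^ n),
      ‖iteratedFDeriv ℝ i (Q n y) z‖ ≤ C + C * (1 - γ ^ n) / (1 - γ) := by
    induction n with
    | zero => intro z hz; simpa using h.bd y hy z (by simpa using hz) i hi
    | succ n ih =>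
      intro z hz
      have h2 := ih z (ball_subset_ball (mul_le_mul_of_nonneg_left
        (pow_le_pow_of_le_one hρ.le hρ1.le (Nat.le_succ n)) hR.le) hz)
      have h3 := h.next n y hy z hz i hi
      have h4 := norm_le_insert (iteratedFDeriv ℝ i (Q n y) z) (iteratedFDeriv ℝ i (Q (n + 1) y) z)
      have h5 : C * (1 - γ ^ (n + 1)) / (1 - γ) = C * (1 - γ ^ n) / (1 - γ) + C * γ ^ n := by
        have : 1 - γ ≠ 0 := by linarith
        field_simp
        ring
      linarith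
  intro z hz
  refine (h1 z hz).trans (add_le_add le_rfl (div_le_div_of_nonneg_right ?_ (by linarith)))
  exact mul_le_of_le_one_right hC (by linarith [pow_nonneg hγ n])

theorem Glue.dist_lim (h : Glue k O R ρ γ C Q) (hR : 0 < R) (hρ : 0 < ρ) (hγ1 : γ < 1) {y : F}
    (hy : y ∈ O) {p : W} (hp : Tendsto (fun n => Q n y y) atTop (𝓝 p)) (n : ℕ) :
    ‖Q n y y - p‖ ≤ C * γ ^ n / (1 - γ) := by
  rw [← dist_eq_norm]
  exact dist_le_of_le_geometric_of_tendsto γ C hγ1 (fun n => by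
    rw [dist_eq_norm, ← norm_sub_zero']
    exact h.next n y hy y (mem_ball_self (by positivity)) 0 (by omega)) hp n

theorem Glue.exists_lim [CompleteSpace W] (h : Glue k O R ρ γ C Q) (hR : 0 < R) (hρ : 0 < ρ)
    (hγ1 : γ < 1) {y : F} (hy : y ∈ O) : ∃ p, Tendsto (fun n => Q n y y) atTop (𝓝 p) :=
  cauchySeq_tendsto_of_complete (cauchySeq_of_le_geometric γ C hγ1 fun n => by
    rw [dist_eq_norm, ← norm_sub_zero']
    exact h.next n y hy y (mem_ball_self (by positivity)) 0 (by omega))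

omit [NormedSpace ℝ F] in
/-- the scale of a small vector -/
theorem exists_scale (hR : 0 < R) (hρ : 0 < ρ) (hρ1 : ρ < 1) (hγ : 0 ≤ γ) (hγρ : γ < ρ) {ε : ℝ}
    (hε : 0 < ε) (y : F) : ∀ᶠ z in 𝓝 y, z ≠ y → ∃ n : ℕ, z ∈ ball y (R * ρ ^ n) ∧
      γ ^ n ≤ ε * ‖z - y‖ := by
  obtain ⟨N, hN⟩ := exists_pow_lt_of_lt_one (show 0 < ε * (R * ρ) / 2 by positivity)
    ((div_lt_one hρ).2 hγρ)
  filter_upwards [ball_mem_nhds y (show 0 < R * ρ ^ N / 2 by positivity)] with z hz hne
  have hv : 0 < ‖z - y‖ := norm_pos_iff.2 (sub_ne_zero.2 hne)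
  rw [mem_ball, dist_eq_norm] at hz
  have h1 : 2 * ‖z - y‖ / R < ρ ^ N := by rw [div_lt_iff₀ hR]; linarith
  obtain ⟨n, h2, h3⟩ := exists_nat_pow_near_of_lt_one (show 0 < 2 * ‖z - y‖ / R by positivity)
    (h1.le.trans (pow_le_one₀ hρ.le hρ1.le)) hρ hρ1
  have h4 : N ≤ n := by
    have := (pow_lt_pow_iff_right_of_lt_one₀ hρ hρ1).1 (h2.trans h1)
    omega
  rw [div_le_iff₀ hR] at h3
  rw [lt_div_iff₀ hR, pow_succ] at h2
  refine ⟨n, by rw [mem_ball, dist_eq_norm]; linarith, ?_⟩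
  have h5 : (γ / ρ) ^ n ≤ (γ / ρ) ^ N :=
    pow_le_pow_of_le_one (by positivity) ((div_le_one hρ).2 hγρ.le) h4
  have h6 : γ ^ n = (γ / ρ) ^ n * ρ ^ n := by rw [← mul_pow, div_mul_cancel₀ _ hρ.ne']
  have h7 := mul_le_mul_of_nonneg_right (h5.trans hN.le) (pow_pos hρ n).le
  have h8 := mul_le_mul_of_nonneg_left h2.le hε.le
  rw [h6]
  linarith

theorem Glue.three (h : Glue k O R ρ γ C Q) (hR : 0 < R) (hρ : 0 < ρ) (hγ : 0 ≤ γ) (hγ1 : γ < 1)
    {P : F → W} (hP : ∀ y ∈ O, Tendsto (fun n => Q n y y) atTop (𝓝 (P y))) {y z : F} (hy : y ∈ O)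
    (hz : z ∈ O) {n : ℕ} (hn : z ∈ ball y (R * ρ ^ n)) :
    ‖P z - P y - (Q n y z - Q n y y)‖ ≤ 2 * (C + C / (1 - γ)) * γ ^ n := by
  have hC : 0 ≤ C := (norm_nonneg _).trans (h.bd y hy y (mem_ball_self hR) 0 (by omega))
  have h1 := h.dist_lim hR hρ hγ1 hy (hP y hy) n
  have h2 := h.dist_lim hR hρ hγ1 hz (hP z hz) n
  have h3 := h.same n y hy z hz hn 0 (by omega)
  rw [norm_sub_zero'] at h3
  have h4 : P z - P y - (Q n y z - Q n y y) =
      (Q n y y - P y) - (Q n z z - P z) - (Q n y z - Q n z z) := by abel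
  have h5 := (norm_sub_le ((Q n y y - P y) - (Q n z z - P z)) (Q n y z - Q n z z)).trans
    (add_le_add (norm_sub_le _ _) le_rfl)
  have h6 : C * γ ^ n / (1 - γ) = C / (1 - γ) * γ ^ n := by ring
  have h7 : 0 ≤ C * γ ^ n := by positivity
  rw [h4]
  linarith

end Glue

/-- the limit of compatible approximations is smooth -/
theorem glue (k : ℕ) : ∀ {F W : Type u} [NormedAddCommGroup F] [NormedSpace ℝ F]
    [NormedAddCommGroup W] [NormedSpace ℝ W] [CompleteSpace W] {O : Set F} {R ρ γ C : ℝ}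
    {Q : ℕ → F → F → W} {P : F → W}, IsOpen O → 0 < R → 0 < ρ → ρ < 1 → 0 ≤ γ → γ < ρ →
    Glue k O R ρ γ C Q → (∀ y ∈ O, Tendsto (fun n => Q n y y) atTop (𝓝 (P y))) →
    ContDiffOn ℝ k P O ∧ ∀ i ≤ k, ∀ y ∈ O,
      Tendsto (fun n => iteratedFDeriv ℝ i (Q n y) y) atTop (𝓝 (iteratedFDeriv ℝ i P y)) := by
  have hz : ∀ {F W : Type u} [NormedAddCommGroup F] [NormedSpace ℝ F]
      [NormedAddCommGroup W] [NormedSpace ℝ W] (g : ℕ → F → W) (G : F → W) (y : F),
      Tendsto (fun n => g n y) atTop (𝓝 (G y)) →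
      Tendsto (fun n => iteratedFDeriv ℝ 0 (g n) y) atTop (𝓝 (iteratedFDeriv ℝ 0 G y)) := by
    intro F W _ _ _ _ g G y h
    rw [tendsto_iff_norm_sub_tendsto_zero] at h ⊢
    simpa only [norm_sub_zero'] using h
  induction k with
  | zero =>
    intro F W _ _ _ _ _ O R ρ γ C Q P hO hR hρ hρ1 hγ hγρ h hP
    have hγ1 := hγρ.trans hρ1
    refine ⟨contDiffOn_zero.2 fun y hy => ContinuousAt.continuousWithinAt ?_, fun i hi y hy => ?_⟩
    · have hC : 0 ≤ C := (norm_nonneg _).trans (h.bd y hy y (mem_ball_self hR) 0 (by omega))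
      have hC' : 0 ≤ C + C / (1 - γ) := add_nonneg hC (div_nonneg hC (by linarith))
      rw [ContinuousAt, tendsto_iff_norm_sub_tendsto_zero]
      have h0 : Tendsto (fun z => 3 * (C + C / (1 - γ)) * ‖z - y‖) (𝓝 y)
          (𝓝 (3 * (C + C / (1 - γ)) * ‖y - y‖)) := (Continuous.tendsto (by fun_prop) y)
      rw [sub_self, norm_zero, mul_zero] at h0
      refine squeeze_zero' (Eventually.of_forall fun _ => norm_nonneg _) ?_ h0
      filter_upwards [exists_scale hR hρ hρ1 hγ hγρ one_pos y, hO.mem_nhds hy] with z h1 hzO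
      by_cases hne : z = y
      · simp [hne]
      obtain ⟨n, hn, h2⟩ := h1 hne
      have h3 := h.three hR hρ hγ hγ1 hP hy hzO hn
      have h4 : ‖Q n y z - Q n y y‖ ≤ (C + C / (1 - γ)) * ‖z - y‖ :=
        (convex_ball y _).norm_image_sub_le_of_norm_fderiv_le (𝕜 := ℝ)
          (fun w hw => (h.smooth n y hy w hw).differentiableAt (by simp))
          (fun w hw => by
            rw [← norm_iteratedFDeriv_one]; exact h.bound hR hρ hρ1 hγ hγ1 hy le_rfl n w hw)
          (mem_ball_self (by positivity)) hn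
      have h5 := norm_le_insert' (P z - P y) (Q n y z - Q n y y)
      have h6 := mul_le_mul_of_nonneg_left h2 hC'
      linarith
    · obtain rfl : i = 0 := by omega
      exact hz (fun n => Q n y) P y (hP y hy)
  | succ k ih =>
    intro F W _ _ _ _ _ O R ρ γ C Q P hO hR hρ hρ1 hγ hγρ h hP
    have hγ1 := hγρ.trans hρ1
    have h' := h.fderiv
    choose! P' hP' using fun y (hy : y ∈ O) => h'.exists_lim hR hρ hγ1 hy
    obtain ⟨h1, h2⟩ := ih hO hR hρ hρ1 hγ hγρ h' hP'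
    have hd : ∀ y ∈ O, HasFDerivAt P (P' y) y := fun y hy => by
      have hC : 0 ≤ C := (norm_nonneg _).trans (h.bd y hy y (mem_ball_self hR) 0 (by omega))
      set C' := C + C / (1 - γ) with hC'
      have hC0 : 0 ≤ C' := add_nonneg hC (div_nonneg hC (by linarith))
      rw [hasFDerivAt_iff_isLittleO, Asymptotics.isLittleO_iff]
      intro ε hε
      have hε' : 0 < ε / (4 * C' + 1) := by positivity
      filter_upwards [exists_scale hR hρ hρ1 hγ hγρ hε' y, hO.mem_nhds hy,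
        ball_mem_nhds y (lt_min one_pos hε')] with z h3 hzO hzb
      by_cases hne : z = y
      · simp [hne]
      obtain ⟨n, hn, h4⟩ := h3 hne
      rw [mem_ball, dist_eq_norm, lt_min_iff] at hzb
      have h5 := h.three hR hρ hγ hγ1 hP hy hzO hn
      have hsub : closedBall y ‖z - y‖ ⊆ ball y (R * ρ ^ n) :=
        closedBall_subset_ball (by rw [← dist_eq_norm]; exact hn)
      have h6 : ‖Q n y z - Q n y y - fderiv ℝ (Q n y) y (z - y)‖ ≤ C' * ‖z - y‖ * ‖z - y‖ :=
        (convex_closedBall y ‖z - y‖).norm_image_sub_le_of_norm_fderiv_le' (𝕜 := ℝ)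
          (fun w hw => (h.smooth n y hy w (hsub hw)).differentiableAt (by simp))
          (fun w hw => by
            have := (convex_ball y _).norm_image_sub_le_of_norm_fderiv_le (𝕜 := ℝ)
              (f := fderiv ℝ (Q n y)) (C := C')
              (fun w hw => (h'.smooth n y hy w hw).differentiableAt (by simp))
              (fun w hw => by
                rw [← norm_iteratedFDeriv_one]
                exact h'.bound hR hρ hρ1 hγ hγ1 hy (by omega) n w hw)
              (mem_ball_self (by positivity)) (hsub hw)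
            exact this.trans (mul_le_mul_of_nonneg_left (by rw [← dist_eq_norm]; exact hw) hC0))
          (mem_closedBall_self (norm_nonneg _)) (by rw [mem_closedBall, dist_eq_norm])
      have h7 : ‖(fderiv ℝ (Q n y) y - P' y) (z - y)‖ ≤ C' * γ ^ n * ‖z - y‖ := by
        refine (ContinuousLinearMap.le_opNorm _ _).trans (mul_le_mul_of_nonneg_right
          ((h'.dist_lim hR hρ hγ1 hy (hP' y hy) n).trans ?_) (norm_nonneg _))
        have : C * γ ^ n / (1 - γ) = C / (1 - γ) * γ ^ n := by ring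
        rw [this]
        exact mul_le_mul_of_nonneg_right (by linarith) (pow_nonneg hγ n)
      have h8 : P z - P y - P' y (z - y) = (P z - P y - (Q n y z - Q n y y)) +
          (Q n y z - Q n y y - fderiv ℝ (Q n y) y (z - y)) +
          (fderiv ℝ (Q n y) y - P' y) (z - y) := by
        rw [sub_apply]; abel
      have h9 := norm_add₃_le (a := P z - P y - (Q n y z - Q n y y))
        (b := Q n y z - Q n y y - fderiv ℝ (Q n y) y (z - y))
        (c := (fderiv ℝ (Q n y) y - P' y) (z - y))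
      set e := ε / (4 * C' + 1)
      have hv := norm_nonneg (z - y)
      have g1 := mul_le_mul_of_nonneg_left h4 hC0
      have g2 : C' * ‖z - y‖ * ‖z - y‖ ≤ C' * e * ‖z - y‖ := by gcongr; exact hzb.2.le
      have g3 : C' * γ ^ n * ‖z - y‖ ≤ C' * γ ^ n :=
        mul_le_of_le_one_right (by positivity) hzb.1.le
      have g4 : (4 * C' + 1) * e = ε := by simp only [e]; field_simp
      have g5 : 0 ≤ e * ‖z - y‖ := by positivity
      rw [h8, ← g4]
      linarith
    have he : EqOn (fderiv ℝ P) P' O := fun y hy => (hd y hy).fderiv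
    refine ⟨?_, fun i hi y hy => ?_⟩
    · rw [Nat.cast_succ, contDiffOn_succ_iff_fderiv_of_isOpen hO]
      exact ⟨fun y hy => (hd y hy).differentiableAt.differentiableWithinAt, by simp, h1.congr he⟩
    · rcases i with _ | i
      · exact hz (fun n => Q n y) P y (hP y hy)
      · have h3 := h2 i (by omega) y hy
        have h4 : iteratedFDeriv ℝ i P' y = iteratedFDeriv ℝ i (fderiv ℝ P) y :=
          ((he.eventuallyEq_of_mem (hO.mem_nhds hy)).iteratedFDeriv ℝ i).eq_of_nhds.symm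
        rw [h4, tendsto_iff_norm_sub_tendsto_zero] at h3
        rw [tendsto_iff_norm_sub_tendsto_zero]
        simpa only [dist_succ] using h3

/-- the version with a first index `n0` -/
theorem glue' (k n0 : ℕ) {F W : Type u} [NormedAddCommGroup F] [NormedSpace ℝ F]
    [NormedAddCommGroup W] [NormedSpace ℝ W] [CompleteSpace W] {O : Set F} {ρ γ C : ℝ}
    {Q : ℕ → F → F → W} (hO : IsOpen O) (hρ : 0 < ρ) (hρ1 : ρ < 1) (hγ : 0 ≤ γ) (hγρ : γ < ρ)
    (hs : ∀ n ≥ n0, ∀ y ∈ O, ∀ z ∈ ball y (ρ ^ n), ContDiffAt ℝ (k + 1 : ℕ) (Q n y) z)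
    (hc : ∀ n ≥ n0, ∀ n', n' = n ∨ n' = n + 1 → ∀ y ∈ O, ∀ y' ∈ O,
      ∀ z ∈ ball y (ρ ^ n) ∩ ball y' (ρ ^ n'), ∀ i ≤ k + 1,
        ‖iteratedFDeriv ℝ i (Q n y) z - iteratedFDeriv ℝ i (Q n' y') z‖ ≤ C * γ ^ n)
    (hb : ∀ y ∈ O, ∀ z ∈ ball y (ρ ^ n0), ∀ i ≤ k + 1, ‖iteratedFDeriv ℝ i (Q n0 y) z‖ ≤ C) :
    ∃ P : F → W, ContDiffOn ℝ k P O ∧ (∀ y ∈ O, Tendsto (fun n => Q n y y) atTop (𝓝 (P y))) ∧
      ∀ i ≤ k, ∀ y ∈ O,
        Tendsto (fun n => iteratedFDeriv ℝ i (Q n y) y) atTop (𝓝 (iteratedFDeriv ℝ i P y)) := by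
  have hR : 0 < ρ ^ n0 := pow_pos hρ _
  have hγ1 := hγρ.trans hρ1
  have hle : ∀ y ∈ O, ∀ n, C * γ ^ (n + n0) ≤ C * γ ^ n := fun y hy n =>
    mul_le_mul_of_nonneg_left (pow_le_pow_of_le_one hγ hγ1.le (by omega))
      ((norm_nonneg _).trans (hb y hy y (mem_ball_self hR) 0 (by omega)))
  have he : ∀ n, ρ ^ n0 * ρ ^ n = ρ ^ (n + n0) := fun n => by rw [← pow_add, add_comm]
  have h : Glue k O (ρ ^ n0) ρ γ C fun n => Q (n + n0) :=
    ⟨fun n y hy z hz => hs _ (by omega) y hy z (he n ▸ hz),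
      fun n y hy y' hy' hz i hi => (hc _ (by omega) _ (Or.inl rfl) y hy y' hy' y'
        ⟨he n ▸ hz, mem_ball_self (pow_pos hρ _)⟩ i (by omega)).trans (hle y hy n),
      fun n y hy z hz i hi => by
        rw [he] at hz
        exact (hc (n + n0) (by omega) (n + 1 + n0) (Or.inr (by omega)) y hy y hy z
          ⟨ball_subset_ball (pow_le_pow_of_le_one hρ.le hρ1.le (by omega)) hz, hz⟩ i hi).trans
          (hle y hy n),
      fun y hy z hz i hi => by simpa using hb y hy z hz i hi⟩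
  choose! P hP using fun y (hy : y ∈ O) => h.exists_lim hR hρ hγ1 hy
  obtain ⟨h1, h2⟩ := glue k hO hR hρ hρ1 hγ hγρ h hP
  exact ⟨P, h1, fun y hy => (tendsto_add_atTop_iff_nat (f := fun n => Q n y y) n0).1 (hP y hy),
    fun i hi y hy => (tendsto_add_atTop_iff_nat (f := fun n => iteratedFDeriv ℝ i (Q n y) y) n0).1
      (h2 i hi y hy)⟩

end Vale.Agent.P207Z.An
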