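import Vale.Agent.P207Z.An.Window
import Vale.Agent.P207.N3.H790.Symm

/-!
# Taylor polynomials are `IsPoly`, and their jets
-/

open Set Metric Filter Topology
open scoped ContDiff Nat

noncomputable section

namespace Vale.Agent.P207Z.An

variable {E F : Type} [NormedAddCommGroup E] [NormedSpace ℝ E] [NormedAddCommGroup F]
  [NormedSpace ℝ F] {J : ℕ}

/-- the polynomial with the coefficients `a i / i!` (this is `P207Z.poly a` by `rfl`) -/
def tpoly (a : (i : Fin (J + 1)) → F [×(i : ℕ)]→L[ℝ] E) (q : F) : E :=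
  ∑ i : Fin (J + 1), (((i : ℕ).factorial : ℝ))⁻¹ • a i fun _ => q

/-- the power series of `tpoly a` -/
def tser (a : (i : Fin (J + 1)) → F [×(i : ℕ)]→L[ℝ] E) : FormalMultilinearSeries ℝ F E :=
  fun k => if h : k < J + 1 then ((k.factorial : ℝ))⁻¹ • a ⟨k, h⟩ else 0

theorem tser_fin (a : (i : Fin (J + 1)) → F [×(i : ℕ)]→L[ℝ] E) (m : ℕ) (hm : J + 1 ≤ m) :
    tser a m = 0 := dif_neg (not_lt.2 hm)

theorem tpoly_series (a : (i : Fin (J + 1)) → F [×(i : ℕ)]→L[ℝ] E) :
    HasFiniteFPowerSeriesOnBall (tpoly a) (tser a) 0 (J + 1) ⊤ := by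
  have h := (tser a).hasFiniteFPowerSeriesOnBall_of_finite (tser_fin a)
  have e : (tser a).sum = tpoly a := by
    funext q
    rw [(tser a).sum_of_finite (tser_fin a), FormalMultilinearSeries.partialSum, Finset.sum_range]
    refine Finset.sum_congr rfl fun i _ => ?_
    simp [tser, i.2, -Order.lt_add_one_iff]
  rwa [e] at h

theorem tpoly_analytic (a : (i : Fin (J + 1)) → F [×(i : ℕ)]→L[ℝ] E) :
    AnalyticOnNhd ℝ (tpoly a) univ := by
  have h := (tpoly_series a).cpolynomialOn.analyticOnNhd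
  rwa [Metric.eball_top] at h

theorem isPoly_tpoly (a : (i : Fin (J + 1)) → F [×(i : ℕ)]→L[ℝ] E) : IsPoly J (tpoly a) where
  sm := contDiffOn_univ.1 ((tpoly_analytic a).contDiffOn uniqueDiffOn_univ)
  top s := by
    have h := (tpoly_series a).changeOrigin (y := s) ENNReal.coe_lt_top
    rw [zero_add] at h
    ext v
    rw [h.toHasFPowerSeriesOnBall.iteratedFDeriv_eq_sum (tpoly_analytic a).analyticOn,
      h.finite _ le_rfl]
    simp

theorem iter_tpoly_apply (a : (i : Fin (J + 1)) → F [×(i : ℕ)]→L[ℝ] E) (i : Fin (J + 1))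
    (v : Fin i → F) : iteratedFDeriv ℝ i (tpoly a) 0 v =
      (((i : ℕ).factorial : ℝ))⁻¹ • ∑ σ : Equiv.Perm (Fin i), a i (v ∘ σ) := by
  rw [(tpoly_series a).toHasFPowerSeriesOnBall.iteratedFDeriv_eq_sum (tpoly_analytic a).analyticOn,
    Finset.smul_sum]
  refine Finset.sum_congr rfl fun σ _ => ?_
  simp [tser, i.2, -Order.lt_add_one_iff, Function.comp_def]

/-- the jets of `tpoly a` at `0` are bounded by the coefficients -/
theorem norm_iter_tpoly_le (a : (i : Fin (J + 1)) → F [×(i : ℕ)]→L[ℝ] E) (i : Fin (J + 1)) :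
    ‖iteratedFDeriv ℝ i (tpoly a) 0‖ ≤ ‖a i‖ := by
  refine ContinuousMultilinearMap.opNorm_le_bound (norm_nonneg _) fun v => ?_
  have hf : (0 : ℝ) < (i : ℕ).factorial := by positivity
  rw [iter_tpoly_apply, norm_smul, norm_inv, Real.norm_of_nonneg hf.le, inv_mul_le_iff₀ hf]
  refine (norm_sum_le _ _).trans ?_
  calc ∑ σ : Equiv.Perm (Fin i), ‖a i (v ∘ σ)‖
      ≤ ∑ _σ : Equiv.Perm (Fin i), ‖a i‖ * ∏ j, ‖v j‖ := by
        refine Finset.sum_le_sum fun σ _ => ((a i).le_opNorm _).trans_eq ?_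
        rw [← Equiv.prod_comp σ fun j => ‖v j‖]
        rfl
    _ = _ := by simp [Fintype.card_perm]

/-- the jets of `tpoly a` at `0` are the coefficients, when these are symmetric -/
theorem iter_tpoly (a : (i : Fin (J + 1)) → F [×(i : ℕ)]→L[ℝ] E) (i : Fin (J + 1))
    (hs : ∀ (σ : Equiv.Perm (Fin i)) (v : Fin i → F), a i (v ∘ σ) = a i v) :
    iteratedFDeriv ℝ i (tpoly a) 0 = a i := by
  ext v
  have hf : ((i : ℕ).factorial : ℝ) ≠ 0 := by positivity
  rw [iter_tpoly_apply]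
  simp only [hs, Finset.sum_const, Finset.card_univ, Fintype.card_perm, Fintype.card_fin]
  rw [← Nat.cast_smul_eq_nsmul ℝ, smul_smul, inv_mul_cancel₀ hf, one_smul]

/-- the Taylor polynomial of a smooth map has the jets of the map -/
theorem iter_tpoly_jet {g : F → E} {U : Set F} {x : F} (hU : IsOpen U) (hg : ContDiffOn ℝ ∞ g U)
    (hx : x ∈ U) {i : ℕ} (hi : i ≤ J) :
    iteratedFDeriv ℝ i (tpoly fun k : Fin (J + 1) => iteratedFDeriv ℝ k g x) 0 =
      iteratedFDeriv ℝ i g x :=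
  iter_tpoly (fun k : Fin (J + 1) => iteratedFDeriv ℝ k g x) ⟨i, Nat.lt_succ_of_le hi⟩
    fun σ v => Vale.Agent.P207.N3.H790.symm_perm hU hg i hx σ v

theorem tpoly_zero (a : (i : Fin (J + 1)) → F [×(i : ℕ)]→L[ℝ] E) :
    tpoly a 0 = a 0 fun _ => 0 := by
  have e : iteratedFDeriv ℝ ((0 : Fin (J + 1)) : ℕ) (tpoly a) 0 (fun _ => 0) = tpoly a 0 :=
    iteratedFDeriv_zero_apply _
  rw [← e, iter_tpoly a 0 fun σ v => congrArg (a 0) (funext fun j => j.elim0)]

/-- a polynomial of degree at most `J` is its Taylor polynomial -/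
theorem IsPoly.eq_tpoly {p : F → E} (h : IsPoly J p) :
    p = tpoly fun k : Fin (J + 1) => iteratedFDeriv ℝ k p 0 := by
  funext s
  set q := tpoly fun k : Fin (J + 1) => iteratedFDeriv ℝ k p 0 with hq
  have h' : IsPoly J q := isPoly_tpoly _
  have hsub : ∀ j y, iteratedFDeriv ℝ j (fun y => p y - q y) y =
      iteratedFDeriv ℝ j p y - iteratedFDeriv ℝ j q y := fun j y =>
    iteratedFDeriv_sub_apply (h.at j y) (h'.at j y)
  have hd : IsPoly J fun y => p y - q y :=
    ⟨h.sm.sub h'.sm, fun y => by rw [hsub, h.top, h'.top, sub_zero]⟩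
  have := hd.norm_iter_le (x := 0) (R := ‖s‖) (B := 0) (j := 0) (s := s) le_rfl
    (fun k _ hk => by
      rw [hsub, hq, iter_tpoly_jet isOpen_univ h.sm.contDiffOn (mem_univ _) hk, sub_self,
        norm_zero]) (mem_closedBall_zero_iff.2 le_rfl)
  rw [norm_iteratedFDeriv_zero, mul_zero] at this
  exact sub_eq_zero.1 (norm_le_zero_iff.1 this)

end Vale.Agent.P207Z.An
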