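import Mathlib

/-!
# Taylor bounds and Landau-Kolmogorov inequalities
-/

open Set Metric Filter Topology
open scoped ContDiff Nat

noncomputable section

namespace Vale.Agent.P207Z.An

universe u

/-- `f (j+1)` is the derivative of `f j` on `s` for `j < K` -/
def Chain {F : Type*} [NormedAddCommGroup F] [NormedSpace ℝ F] (f : ℕ → ℝ → F) (K : ℕ)
    (s : Set ℝ) : Prop :=
  ∀ j < K, ∀ x ∈ s, HasDerivWithinAt (f j) (f (j + 1) x) s x

section Chain

variable {F : Type*} [NormedAddCommGroup F] [NormedSpace ℝ F] {f : ℕ → ℝ → F} {K : ℕ}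
  {s : Set ℝ}

theorem Chain.mono (h : Chain f K s) {t : Set ℝ} (ht : t ⊆ s) : Chain f K t :=
  fun j hj x hx => (h j hj x (ht hx)).mono ht

theorem Chain.of_le (h : Chain f K s) {L : ℕ} (hL : L ≤ K) : Chain f L s :=
  fun j hj => h j (hj.trans_le hL)

theorem Chain.shift (h : Chain f (K + 1) s) : Chain (fun j => f (j + 1)) K s :=
  fun j hj => h (j + 1) (by omega)

theorem Chain.drop (h : Chain f K s) (i : ℕ) : Chain (fun j => f (i + j)) (K - i) s :=
  fun j hj => h (i + j) (by omega)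

theorem Chain.continuousOn (h : Chain f K s) {j : ℕ} (hj : j < K) : ContinuousOn (f j) s :=
  fun x hx => (h j hj x hx).continuousWithinAt

theorem chain_iteratedDeriv {g : ℝ → F} (hg : ∀ x ∈ s, ContDiffAt ℝ K g x) :
    Chain (fun j => iteratedDeriv j g) K s := fun j hj x hx => by
  have h1 : DifferentiableAt ℝ (iteratedDeriv j g) x := by
    have := (hg x hx).differentiableAt_iteratedFDeriv (m := j) (by exact_mod_cast hj)
    rw [iteratedDeriv_eq_equiv_comp]
    exact (ContinuousMultilinearMap.piFieldEquiv ℝ (Fin j) F).symm.differentiableAt.comp x this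
  have h2 := h1.hasDerivAt.hasDerivWithinAt (s := s)
  rw [← iteratedDeriv_succ] at h2
  exact h2

/-- derivatives along a line -/
theorem chain_line {E : Type*} [NormedAddCommGroup E] [NormedSpace ℝ E] {g : E → F} {x v : E}
    (hg : ∀ t ∈ s, ContDiffAt ℝ K g (x + t • v)) :
    Chain (fun j t => iteratedFDeriv ℝ j g (x + t • v) fun _ => v) K s := fun j hj t ht => by
  have h0 : ContDiffAt ℝ (j + 1) g (x + t • v) := (hg t ht).of_le (by exact_mod_cast hj)
  have h1 : DifferentiableAt ℝ (iteratedFDeriv ℝ j g) (x + t • v) :=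
    (hg t ht).differentiableAt_iteratedFDeriv (by exact_mod_cast hj)
  have h2 : DifferentiableAt ℝ (fun t : ℝ => x + t • v) t := by fun_prop
  have h3 : DifferentiableAt ℝ (fun t : ℝ => iteratedFDeriv ℝ j g (x + t • v) fun _ => v) t :=
    DifferentiableAt.comp (g := fun y => iteratedFDeriv ℝ j g y fun _ => v) t
      (h1.continuousMultilinear_apply_const fun _ => v) h2
  have h4 := h3.hasDerivAt
  rw [h0.deriv_fderiv_add_smul] at h4
  exact h4.hasDerivWithinAt

/-- Taylor's formula with a crude remainder -/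
theorem Chain.taylor (hs : Convex ℝ s) (h : Chain f K s) {B : ℝ} (hB : ∀ x ∈ s, ‖f K x‖ ≤ B)
    {x y : ℝ} (hx : x ∈ s) (hy : y ∈ s) :
    ‖f 0 y - ∑ i ∈ Finset.range K, ((y - x) ^ i / i !) • f i x‖ ≤ B * |y - x| ^ K := by
  induction K generalizing f y with
  | zero => simpa using hB y hy
  | succ K ih =>
    have hsub : uIcc x y ⊆ s := hs.ordConnected.uIcc_subset hx hy
    have hB0 : 0 ≤ B := (norm_nonneg _).trans (hB x hx)
    have hd : ∀ z ∈ uIcc x y, HasDerivWithinAt
        (fun z => f 0 z - ∑ i ∈ Finset.range (K + 1), ((z - x) ^ i / i !) • f i x)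
        (f 1 z - ∑ i ∈ Finset.range K, ((z - x) ^ i / i !) • f (i + 1) x) (uIcc x y) z := by
      intro z hz
      refine ((h 0 (by omega) z (hsub hz)).mono hsub).sub ?_
      simp only [Finset.sum_range_succ']
      simp only [pow_zero]
      refine HasDerivAt.hasDerivWithinAt (HasDerivAt.add_const _ ?_)
      refine HasDerivAt.fun_sum fun i _ => ?_
      have h1 : HasDerivAt (fun z : ℝ => (z - x) ^ (i + 1) / ((i + 1) ! : ℝ))
          ((z - x) ^ i / (i ! : ℝ)) z := by
        have h2 := (((hasDerivAt_id z).sub_const x).fun_pow (i + 1)).div_const ((i + 1) ! : ℝ)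
        refine h2.congr_deriv ?_
        rw [Nat.factorial_succ]
        push_cast
        have : (i ! : ℝ) ≠ 0 := by positivity
        simp only [id]
        field_simp
      exact h1.smul_const _
    have hb : ∀ z ∈ uIcc x y,
        ‖f 1 z - ∑ i ∈ Finset.range K, ((z - x) ^ i / i !) • f (i + 1) x‖ ≤ B * |y - x| ^ K := by
      intro z hz
      refine (ih h.shift hB (hsub hz)).trans (mul_le_mul_of_nonneg_left ?_ hB0)
      exact pow_le_pow_left₀ (abs_nonneg _) (abs_sub_left_of_mem_uIcc hz) K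
    have := (convex_uIcc x y).norm_image_sub_le_of_norm_hasDerivWithin_le hd hb left_mem_uIcc
      right_mem_uIcc
    have h0 : f 0 x - ∑ i ∈ Finset.range (K + 1), ((x - x) ^ i / i !) • f i x = 0 := by
      simp [Finset.sum_range_succ']
    rw [h0, sub_zero, Real.norm_eq_abs] at this
    rw [pow_succ, ← mul_assoc]
    exact this

end Chain

/-- the coefficients of a polynomial are controlled by its values on the unit interval -/
theorem coeff_le (K : ℕ) : ∃ C : ℝ, 0 < C ∧ ∀ {F : Type u} [NormedAddCommGroup F]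
    [NormedSpace ℝ F] (c : ℕ → F) (A : ℝ),
    (∀ t ∈ Icc (0 : ℝ) 1, ‖∑ i ∈ Finset.range K, t ^ i • c i‖ ≤ A) → ∀ i < K, ‖c i‖ ≤ C * A := by
  let v : Fin K → ℝ := fun k => (k : ℝ) / K
  have hv : Function.Injective v := fun a b h => by
    have hK : (K : ℝ) ≠ 0 := by have := a.pos; positivity
    have := (div_left_inj' hK).1 h
    exact Fin.ext (by exact_mod_cast this)
  have hv1 : ∀ k, v k ∈ Icc (0 : ℝ) 1 := fun k => by
    have hK : (0 : ℝ) < K := by exact_mod_cast k.pos
    exact ⟨by positivity, (div_le_one hK).2 (by exact_mod_cast k.2.le)⟩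
  have hdet : IsUnit (Matrix.vandermonde v).det :=
    (Matrix.det_vandermonde_ne_zero_iff.2 hv).isUnit
  set W := (Matrix.vandermonde v)⁻¹ with hW
  have hWV : W * Matrix.vandermonde v = 1 := Matrix.nonsing_inv_mul _ hdet
  refine ⟨1 + ∑ i, ∑ k, |W i k|, by positivity, fun {F} _ _ c A hA i hi => ?_⟩
  have hA0 : 0 ≤ A := (norm_nonneg _).trans (hA 0 ⟨le_rfl, zero_le_one⟩)
  have h1 : c i = ∑ k, W ⟨i, hi⟩ k • ∑ j ∈ Finset.range K, v k ^ j • c j := by
    simp only [Finset.smul_sum, smul_smul]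
    rw [Finset.sum_comm, Finset.sum_range]
    have h2 : ∀ j : Fin K, ∑ k, (W ⟨i, hi⟩ k * v k ^ (j : ℕ)) • c j =
        (1 : Matrix (Fin K) (Fin K) ℝ) ⟨i, hi⟩ j • c j := fun j => by
      rw [← Finset.sum_smul, ← hWV, Matrix.mul_apply]
      rfl
    simp only [h2, Matrix.one_apply, ite_smul, one_smul, zero_smul]
    rw [Finset.sum_ite_eq]
    simp
  rw [h1]
  refine (norm_sum_le _ _).trans ?_
  have h3 : ∑ k, ‖W ⟨i, hi⟩ k • ∑ j ∈ Finset.range K, v k ^ j • c j‖ ≤
      (∑ k, |W ⟨i, hi⟩ k|) * A := by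
    rw [Finset.sum_mul]
    refine Finset.sum_le_sum fun k _ => ?_
    rw [norm_smul, Real.norm_eq_abs]
    exact mul_le_mul_of_nonneg_left (hA _ (hv1 k)) (abs_nonneg _)
  refine h3.trans (mul_le_mul_of_nonneg_right ?_ hA0)
  have := Finset.single_le_sum (f := fun i => ∑ k, |W i k|) (s := Finset.univ)
    (fun _ _ => by positivity) (Finset.mem_univ ⟨i, hi⟩)
  linarith

/-- Landau-Kolmogorov inequality on an interval -/
theorem lk_chain (K : ℕ) : ∃ C : ℝ, 1 ≤ C ∧ ∀ {F : Type u} [NormedAddCommGroup F]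
    [NormedSpace ℝ F] (f : ℕ → ℝ → F) (a l A B : ℝ), 0 < l → Chain f K (Icc a (a + l)) →
    (∀ x ∈ Icc a (a + l), ‖f 0 x‖ ≤ A) → (∀ x ∈ Icc a (a + l), ‖f K x‖ ≤ B) →
    ∀ j ≤ K, ∀ x ∈ Icc a (a + l), ‖f j x‖ * l ^ j ≤ C * (A + B * l ^ K) := by
  obtain ⟨C, hC0, hC⟩ := coeff_le.{u} K
  have hK1 : (1 : ℝ) ≤ K ! := by exact_mod_cast K.factorial_pos
  have hK2 : (1 : ℝ) ≤ 2 ^ K := one_le_pow₀ one_le_two
  refine ⟨1 + C * (2 ^ K * K !), le_add_of_nonneg_right (by positivity),
    fun {F} _ _ f a l A B hl hf hA hB j hj x hx => ?_⟩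
  have hA0 : 0 ≤ A := (norm_nonneg _).trans (hA x hx)
  have hB0 : 0 ≤ B := (norm_nonneg _).trans (hB x hx)
  have hS : 0 ≤ A + B * l ^ K := by positivity
  rcases hj.eq_or_lt with rfl | hj
  · have := mul_le_mul_of_nonneg_right (hB x hx) (pow_pos hl j).le
    have h2 : 0 ≤ C * (2 ^ j * j !) * (A + B * l ^ j) := by positivity
    nlinarith
  obtain ⟨σ, hσ, hmem⟩ : ∃ σ : ℝ, |σ| = l / 2 ∧ ∀ t ∈ Icc (0 : ℝ) 1, x + t * σ ∈ Icc a (a + l) := by
    rcases le_total x (a + l / 2) with h | h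
    · exact ⟨l / 2, abs_of_pos (by linarith), fun t ht =>
        ⟨by nlinarith [hx.1, ht.1], by nlinarith [ht.2]⟩⟩
    · exact ⟨-(l / 2), by rw [abs_neg, abs_of_pos (by linarith)], fun t ht =>
        ⟨by nlinarith [ht.2], by nlinarith [hx.2, ht.1]⟩⟩
  have h1 := hC (fun i => (σ ^ i / i !) • f i x) (A + B * l ^ K) (fun t ht => by
    have h2 := hf.taylor (convex_Icc _ _) hB hx (hmem t ht)
    have h3 : ∑ i ∈ Finset.range K, t ^ i • (σ ^ i / i !) • f i x =
        ∑ i ∈ Finset.range K, ((x + t * σ - x) ^ i / i !) • f i x :=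
      Finset.sum_congr rfl fun i _ => by
        rw [smul_smul, add_sub_cancel_left, mul_pow, mul_div_assoc]
    have h4 : |x + t * σ - x| ^ K ≤ l ^ K := by
      refine pow_le_pow_left₀ (abs_nonneg _) ?_ K
      rw [add_sub_cancel_left, abs_mul, hσ, abs_of_nonneg ht.1]
      nlinarith [ht.2]
    have h5 := norm_sub_le_norm_sub_add_norm_sub
      (∑ i ∈ Finset.range K, ((x + t * σ - x) ^ i / i !) • f i x) (f 0 (x + t * σ)) 0
    rw [sub_zero, sub_zero, norm_sub_rev] at h5
    rw [h3]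
    linarith [hA _ (hmem t ht), mul_le_mul_of_nonneg_left h4 hB0]) j hj
  rw [norm_smul, Real.norm_eq_abs, abs_div, abs_pow, hσ, Nat.abs_cast] at h1
  have hj1 : (j ! : ℝ) ≤ K ! := by exact_mod_cast Nat.factorial_le hj.le
  have hj2 : (2 : ℝ) ^ j ≤ 2 ^ K := pow_le_pow_right₀ one_le_two hj.le
  have hj0 : (0 : ℝ) < j ! := by positivity
  have h6 : ‖f j x‖ * l ^ j = (l / 2) ^ j / j ! * ‖f j x‖ * (2 ^ j * j !) := by
    rw [div_pow]; field_simp
  have h7 : (2 : ℝ) ^ j * j ! ≤ 2 ^ K * K ! := mul_le_mul hj2 hj1 hj0.le (by positivity)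
  rw [h6]
  have h8 := mul_le_mul h1 h7 (by positivity) (by positivity)
  nlinarith

/-- Landau-Kolmogorov inequality at the centre of a ball -/
theorem lk_ball (K : ℕ) : ∃ C : ℝ, 1 ≤ C ∧ ∀ {E F : Type u} [NormedAddCommGroup E]
    [NormedSpace ℝ E] [NormedAddCommGroup F] [NormedSpace ℝ F] (f : E → F) (x : E) (r A B : ℝ),
    0 < r → (∀ y ∈ closedBall x r, ContDiffAt ℝ K f y) → (∀ y ∈ closedBall x r, ‖f y‖ ≤ A) →
    (∀ y ∈ closedBall x r, ‖iteratedFDeriv ℝ K f y‖ ≤ B) →
    ∀ j ≤ K, ‖iteratedFDeriv ℝ j f x‖ * r ^ j ≤ C * (A + B * r ^ K) := by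
  induction K with
  | zero =>
    refine ⟨1, le_rfl, fun {E F} _ _ _ _ f x r A B hr _ hA hB j hj => ?_⟩
    obtain rfl : j = 0 := by omega
    have h1 := hA x (mem_closedBall_self hr.le)
    have h2 := (norm_nonneg _).trans (hB x (mem_closedBall_self hr.le))
    rw [norm_iteratedFDeriv_zero]
    simp only [pow_zero, mul_one, one_mul]
    linarith
  | succ K ih =>
    obtain ⟨C, hC1, hC⟩ := ih
    obtain ⟨D, hD1, hD⟩ := lk_chain.{u} (K + 1)
    have h2K : (1 : ℝ) ≤ 2 ^ K := one_le_pow₀ one_le_two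
    refine ⟨2 ^ K * C * (2 * D + 1), ?_, fun {E F} _ _ _ _ f x r A B hr hf hA hB j hj => ?_⟩
    · have : (1 : ℝ) ≤ 2 ^ K * C := one_le_mul_of_one_le_of_one_le h2K hC1
      exact one_le_mul_of_one_le_of_one_le this (by linarith)
    have hA0 : 0 ≤ A := (norm_nonneg _).trans (hA x (mem_closedBall_self hr.le))
    have hB0 : 0 ≤ B := (norm_nonneg _).trans (hB x (mem_closedBall_self hr.le))
    have hS : 0 ≤ A + B * r ^ (K + 1) := by positivity
    have hbig : (1 : ℝ) ≤ 2 ^ K * C * (2 * D + 1) :=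
      one_le_mul_of_one_le_of_one_le (one_le_mul_of_one_le_of_one_le h2K hC1) (by linarith)
    rcases j with _ | j
    · rw [norm_iteratedFDeriv_zero, pow_zero, mul_one]
      have h1 := hA x (mem_closedBall_self hr.le)
      have h2 : 0 ≤ B * r ^ (K + 1) := by positivity
      nlinarith
    have hsub : closedBall x (r / 2) ⊆ closedBall x r := closedBall_subset_closedBall (by linarith)
    have hr2 : (r / 2) ^ (K + 1) ≤ r ^ (K + 1) := pow_le_pow_left₀ (by linarith) (by linarith) _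
    have hd : ∀ y ∈ closedBall x (r / 2),
        ‖fderiv ℝ f y‖ ≤ 2 * D * (A + B * r ^ (K + 1)) / r := fun y hy => by
      refine ContinuousLinearMap.opNorm_le_of_unit_norm (by positivity) fun v hv => ?_
      have hm : ∀ t ∈ Icc (0 : ℝ) (0 + r / 2), y + t • v ∈ closedBall x r := fun t ht => by
        rw [mem_closedBall] at hy ⊢
        have h1 : dist (y + t • v) y = t := by
          rw [dist_eq_norm, add_sub_cancel_left, norm_smul, hv, mul_one, Real.norm_eq_abs,
            abs_of_nonneg ht.1]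
        linarith [dist_triangle (y + t • v) y x, ht.2]
      have h1 := hD (fun j t => iteratedFDeriv ℝ j f (y + t • v) fun _ => v) 0 (r / 2) A B
        (by linarith) (chain_line fun t ht => hf _ (hm t ht))
        (fun t ht => by simpa using hA _ (hm t ht))
        (fun t ht => by
          refine (ContinuousMultilinearMap.le_opNorm _ _).trans ?_
          simpa [hv] using hB _ (hm t ht)) 1 (by omega) 0 ⟨le_rfl, by linarith⟩
      simp only [zero_smul, add_zero, iteratedFDeriv_one_apply, pow_one] at h1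
      rw [le_div_iff₀ hr]
      nlinarith [mul_le_mul_of_nonneg_left hr2 hB0]
    have h1 := hC (fderiv ℝ f) x (r / 2) _ B (by linarith)
      (fun y hy => (hf y (hsub hy)).fderiv_right (by push_cast; exact le_rfl)) hd
      (fun y hy => by rw [norm_iteratedFDeriv_fderiv]; exact hB y (hsub hy)) j (by omega)
    rw [norm_iteratedFDeriv_fderiv] at h1
    have h2 : (r / 2) ^ K ≤ r ^ K := pow_le_pow_left₀ (by linarith) (by linarith) _
    have h3 : (2 : ℝ) ^ j ≤ 2 ^ K := pow_le_pow_right₀ one_le_two (by omega)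
    have h4 : ‖iteratedFDeriv ℝ (j + 1) f x‖ * r ^ (j + 1) =
        2 ^ j * (‖iteratedFDeriv ℝ (j + 1) f x‖ * (r / 2) ^ j * r) := by
      rw [div_pow, pow_succ]; field_simp
    have h5 : (2 * D * (A + B * r ^ (K + 1)) / r + B * (r / 2) ^ K) * r ≤
        (2 * D + 1) * (A + B * r ^ (K + 1)) := by
      rw [add_mul, div_mul_cancel₀ _ hr.ne', pow_succ r K]
      nlinarith [mul_le_mul_of_nonneg_left h2 (mul_nonneg hB0 hr.le)]
    have h6 : ‖iteratedFDeriv ℝ (j + 1) f x‖ * (r / 2) ^ j * r ≤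
        C * ((2 * D + 1) * (A + B * r ^ (K + 1))) :=
      (mul_le_mul_of_nonneg_right h1 hr.le).trans (by
        rw [mul_assoc]; exact mul_le_mul_of_nonneg_left h5 (by linarith))
    rw [h4]
    have h7 := mul_le_mul h3 h6 (by positivity) (by positivity)
    linarith

end Vale.Agent.P207Z.An
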