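import Vale.Agent.P207Z.An.FrobA
import Vale.Agent.P207Z.An.LK

/-!
# Frobenius charts adapted to a subspace, with an error vanishing to finite order
-/

open Set Metric Filter Topology Asymptotics Module
open scoped ContDiff

noncomputable section

namespace Vale.Agent.P207Z.An

variable {T W H K : Type} [NormedAddCommGroup T] [NormedSpace ℝ T]
  [NormedAddCommGroup W] [NormedSpace ℝ W] [NormedAddCommGroup H] [NormedSpace ℝ H]
  [NormedAddCommGroup K] [NormedSpace ℝ K]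

/-- `f` vanishes to order `k` along `U` near `x` -/
def VanOn (k : ℕ) (U : Set T) (x : T) (f : T → W) : Prop :=
  ∀ᶠ z in 𝓝 x, z ∈ U → ∀ i < k, iteratedFDeriv ℝ i f z = 0

theorem ball_bd {f : T → W} {x : T} {L : ℕ} (hf : ContDiffAt ℝ L f x) {s : Set T} (hs : s ∈ 𝓝 x) :
    ∃ r > 0, ∃ B, 0 ≤ B ∧ ∀ z ∈ ball x r,
      z ∈ s ∧ ContDiffAt ℝ L f z ∧ ‖iteratedFDeriv ℝ L f z‖ ≤ B := by
  have h1 : ∀ᶠ z in 𝓝 x, ‖iteratedFDeriv ℝ L f z‖ < ‖iteratedFDeriv ℝ L f x‖ + 1 :=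
    (hf.continuousAt_iteratedFDeriv le_rfl).norm.eventually (Iio_mem_nhds (lt_add_one _))
  obtain ⟨r, hr, h⟩ := Metric.mem_nhds_iff.1 (h1.and ((hf.eventually (by simp)).and hs))
  exact ⟨r, hr, _, by positivity, fun z hz => ⟨(h hz).2.2, (h hz).2.1, (h hz).1.le⟩⟩

theorem VanOn.isBigO {L : ℕ} {τ : T →L[ℝ] T} (hτ : ∀ z, τ (τ z) = τ z) {x : T} (h0 : τ x = 0)
    {f : T → W} (hf : ContDiffAt ℝ L f x) (h : VanOn L {z | τ z = 0} x f) :
    f =O[𝓝 x] fun z => ‖τ z‖ ^ L := by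
  obtain ⟨r, hr, B, hB, hb⟩ := ball_bd hf h
  have hρ : Tendsto (fun z => z - τ z) (𝓝 x) (𝓝 x) := by
    have : Continuous fun z => z - τ z := by fun_prop
    simpa [h0] using this.tendsto x
  refine IsBigO.of_bound B ?_
  filter_upwards [ball_mem_nhds x hr, hρ.eventually (ball_mem_nhds x hr)] with z hz hz'
  have hm : ∀ t ∈ Icc (0 : ℝ) 1, z - τ z + t • τ z ∈ ball x r := fun t ht => by
    simpa using (convex_ball x r).add_smul_sub_mem hz' hz ht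
  have k := (chain_line (K := L) (g := f) fun t ht => (hb _ (hm t ht)).2.1).taylor (convex_Icc 0 1)
    (B := B * ‖τ z‖ ^ L) (fun t ht => by
      refine (ContinuousMultilinearMap.le_opNorm _ _).trans ?_
      simpa using mul_le_mul_of_nonneg_right (hb _ (hm t ht)).2.2 (by positivity))
    ⟨le_rfl, zero_le_one⟩ ⟨zero_le_one, le_rfl⟩
  rw [Finset.sum_eq_zero fun i hi => by
    simp [(hb _ hz').1 (by simp [hτ]) i (Finset.mem_range.1 hi)]] at k
  simpa using k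

theorem VanOn.of_isBigO {L : ℕ} {τ : T →L[ℝ] T} {x : T} {f : T → W} (hf : ContDiffAt ℝ L f x)
    (h : f =O[𝓝 x] fun z => ‖τ z‖ ^ L) : VanOn L {z | τ z = 0} x f := by
  obtain ⟨c, hc, h⟩ := h.exists_pos
  obtain ⟨r, hr, B, hB, hb⟩ := ball_bd hf h.bound
  obtain ⟨C, hC, hlk⟩ := lk_ball.{0} L
  filter_upwards [ball_mem_nhds x (half_pos hr)] with z hz hz0 j hj
  have key : ∀ s ∈ Ioo (0 : ℝ) (min (r / 2) 1),
      ‖iteratedFDeriv ℝ j f z‖ ≤ C * (c * ‖τ‖ ^ L + B) * s := fun s hs => by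
    have hs1 := hs.1
    have hm : ∀ y ∈ closedBall z s, y ∈ ball x r := fun y hy => by
      rw [mem_ball] at hz ⊢
      linarith [dist_triangle y z x, mem_closedBall.1 hy, (lt_min_iff.1 hs.2).1]
    have k := hlk f z s (c * (‖τ‖ * s) ^ L) B hs.1 (fun y hy => (hb y (hm y hy)).2.1)
      (fun y hy => by
        have k1 : ‖f y‖ ≤ c * ‖‖τ y‖ ^ L‖ := (hb y (hm y hy)).1
        have k2 : τ y = τ (y - z) := by rw [map_sub, show τ z = 0 from hz0, sub_zero]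
        have k3 : ‖τ y‖ ≤ ‖τ‖ * s := k2 ▸ τ.le_of_opNorm_le_of_le le_rfl (mem_closedBall_iff_norm.1 hy)
        rw [norm_pow, norm_norm] at k1
        exact k1.trans (by gcongr)) (fun y hy => (hb y (hm y hy)).2.2) j hj.le
    have k4 : s ^ L ≤ s * s ^ j := by
      rw [← pow_succ']
      exact pow_le_pow_of_le_one hs.1.le (lt_min_iff.1 hs.2).2.le hj
    refine le_of_mul_le_mul_right (k.trans ?_) (pow_pos hs.1 j)
    calc _ = C * (c * ‖τ‖ ^ L + B) * s ^ L := by rw [mul_pow]; ring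
      _ ≤ C * (c * ‖τ‖ ^ L + B) * (s * s ^ j) := by gcongr
      _ = _ := by ring
  have ht : Tendsto (fun s : ℝ => C * (c * ‖τ‖ ^ L + B) * s) (𝓝[>] 0) (𝓝 0) := by
    have : Continuous fun s : ℝ => C * (c * ‖τ‖ ^ L + B) * s := by fun_prop
    simpa using (this.tendsto 0).mono_left nhdsWithin_le_nhds
  refine norm_le_zero_iff.1 (ge_of_tendsto ht ?_)
  filter_upwards [Ioo_mem_nhdsGT (lt_min (half_pos hr) one_pos)] with s hs using key s hs

theorem isBigO_clm [FiniteDimensional ℝ H] {α : Type*} {l : Filter α} {B : α → H →L[ℝ] W}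
    {g : α → ℝ} (h : ∀ v, (fun z => B z v) =O[l] g) : B =O[l] g := by
  obtain ⟨C, hC, hb⟩ := (finBasis ℝ H).exists_opNorm_le (F := W)
  have k := IsBigO.sum (A := fun i z => ‖B z (finBasis ℝ H i)‖) (s := Finset.univ)
    fun i _ => (h _).norm_left
  refine IsBigO.trans (IsBigO.of_bound C (Eventually.of_forall fun z => ?_)) k
  refine hb (norm_nonneg _) fun i => le_trans ?_ (le_abs_self _)
  rw [Finset.sum_apply]
  exact Finset.single_le_sum (f := fun i => ‖B z (finBasis ℝ H i)‖) (fun _ _ => norm_nonneg _)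
    (Finset.mem_univ i)

variable [FiniteDimensional ℝ T]

theorem frame_est {Pi : T → T →L[ℝ] T} {z0 : T} (hc : ContinuousAt Pi z0)
    (J : (H × K) ≃L[ℝ] T) (hJ : ∀ p, Pi z0 (J p) = J p ↔ p.2 = 0) :
    ∃ c > 0, ∀ᶠ z in 𝓝 z0, ∀ u, (J.symm u).1 = 0 → ‖u‖ ≤ c * ‖u - Pi z u‖ := by
  let B : T →L[ℝ] H × T :=
    ((ContinuousLinearMap.fst ℝ H K).comp (J.symm : T →L[ℝ] H × K)).prod (1 - Pi z0)
  obtain ⟨c, hc0, hB⟩ := (B : T →ₗ[ℝ] H × T).exists_antilipschitzWith (by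
    refine LinearMap.ker_eq_bot'.2 fun u hu => ?_
    obtain ⟨p, rfl⟩ := J.surjective u
    simp only [B, ContinuousLinearMap.coe_coe, ContinuousLinearMap.prod_apply, Prod.mk_eq_zero,
      sub_apply, one_apply_eq_self, sub_eq_zero] at hu
    rw [show p = 0 from Prod.ext (by simpa using hu.1) ((hJ p).1 hu.2.symm), map_zero])
  have hc1 : (0 : ℝ) < c := hc0
  refine ⟨2 * c, by positivity, ?_⟩
  filter_upwards [hc.eventually (ball_mem_nhds _ (show 0 < 1 / (2 * (c : ℝ)) by positivity))]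
    with z hz u hu
  have k1 := hB.le_mul_dist u 0
  have k2 : B u = (0, u - Pi z0 u) := by simp [B, hu]
  simp only [dist_zero_right, map_zero, ContinuousLinearMap.coe_coe, k2, Prod.norm_mk, norm_zero,
    norm_nonneg, sup_of_le_right] at k1
  have k3 : ‖Pi z u - Pi z0 u‖ ≤ 1 / (2 * (c : ℝ)) * ‖u‖ :=
    (Pi z - Pi z0).le_of_opNorm_le (mem_ball_iff_norm.1 hz).le u
  have k4 := norm_sub_le_norm_sub_add_norm_sub u (Pi z u) (Pi z0 u)
  have k5 : (c : ℝ) * (1 / (2 * (c : ℝ)) * ‖u‖) = ‖u‖ / 2 := by field_simp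
  nlinarith [mul_le_mul_of_nonneg_left (k4.trans (add_le_add le_rfl k3)) hc1.le]

omit [NormedSpace ℝ T] [NormedSpace ℝ W] [FiniteDimensional ℝ T] in
theorem ev_bd {f : T → W} {x : T} (hf : ContinuousAt f x) : ∀ᶠ z in 𝓝 x, ‖f z‖ ≤ ‖f x‖ + 1 :=
  (hf.norm.eventually (Iio_mem_nhds (lt_add_one _))).mono fun _ h => le_of_lt h

variable [FiniteDimensional ℝ H] [FiniteDimensional ℝ K]

/-- Frobenius chart whose derivative at the base point is the inverse of `J` -/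
theorem frobJ (L : ℕ) (τ : T →L[ℝ] T) (hτ : ∀ z, τ (τ z) = τ z) {z0 : T} (h0 : τ z0 = 0)
    {Pi : T → T →L[ℝ] T} (hs : ∀ᶠ z in 𝓝 z0, ContDiffAt ℝ ∞ Pi z ∧ Pi z * Pi z = Pi z)
    (J : (H × K) ≃L[ℝ] T) (hJ : ∀ p, Pi z0 (J p) = J p ↔ p.2 = 0)
    (hsp : ∀ p, τ (J p) = 0 → τ (J (p.1, 0)) = 0)
    (htan : ∀ᶠ z in 𝓝 z0, τ z = 0 → ∀ u, Pi z u = u → τ (J ((J.symm u).1, 0)) = 0 → τ u = 0)
    (hint : ∀ v w, (fun z => (1 - Pi z) (VectorField.lieBracket ℝ (fun y => Pi y v)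
      (fun y => Pi y w) z)) =O[𝓝 z0] fun z => ‖τ z‖ ^ L) :
    ∃ Ph : OpenPartialHomeomorph T (H × K), z0 ∈ Ph.source ∧ Ph z0 = 0 ∧
      ContDiffOn ℝ ∞ Ph Ph.source ∧ ContDiffOn ℝ ∞ Ph.symm Ph.target ∧
      fderiv ℝ Ph.symm 0 = J ∧ (∀ z ∈ Ph.source, τ z = 0 ↔ τ (J (Ph z)) = 0) ∧
      ∀ v, (fun z => fderiv ℝ (fun y => (Ph y).2) z (Pi z v)) =O[𝓝 z0] fun z => ‖τ z‖ ^ L := by
  have : CompleteSpace H := FiniteDimensional.complete ℝ H
  let ι : H →L[ℝ] T := (J : H × K →L[ℝ] T).comp (ContinuousLinearMap.inl ℝ H K)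
  let pr : T →L[ℝ] H := (ContinuousLinearMap.fst ℝ H K).comp (J.symm : T →L[ℝ] H × K)
  have hι : ∀ v, ι v = J (v, 0) := fun _ => rfl
  have hpι : ∀ v, pr (ι v) = v := fun v => by simp [pr, ι]
  let A : T → H →L[ℝ] H := fun z => pr.comp ((Pi z).comp ι)
  let g : T → H →L[ℝ] T := fun z => ι.comp (Ring.inverse (A z))
  let X : T → H →L[ℝ] T := fun z => (Pi z).comp (g z)
  have hA0 : A z0 = 1 := ContinuousLinearMap.ext fun v => by
    simp only [A, ContinuousLinearMap.comp_apply, hι, (hJ (v, 0)).2 rfl]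
    exact hpι v
  have hAs : ∀ z, ContDiffAt ℝ ∞ Pi z → ContDiffAt ℝ ∞ A z := fun z hz =>
    contDiffAt_const.clm_comp (hz.clm_comp contDiffAt_const)
  have hP0 := hs.self_of_nhds.1
  have hU : ∀ᶠ z in 𝓝 z0, IsUnit (A z) :=
    (hAs _ hP0).continuousAt.eventually (Units.isOpen.mem_nhds (by simp [hA0]))
  have hg : ∀ᶠ z in 𝓝 z0, ContDiffAt ℝ ∞ g z := by
    filter_upwards [hs, hU] with z hz hu
    obtain ⟨u, hu⟩ := hu
    refine contDiffAt_const.clm_comp (ContDiffAt.comp (g := Ring.inverse) z ?_ (hAs z hz.1))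
    rw [← hu]
    exact contDiffAt_ringInverse ℝ u
  have hX : ∀ᶠ z in 𝓝 z0, ContDiffAt ℝ ∞ X z := by
    filter_upwards [hs, hg] with z hz hz' using hz.1.clm_comp hz'
  have hpr : ∀ᶠ z in 𝓝 z0, ∀ v, pr (X z v) = v := by
    filter_upwards [hU] with z hu v
    exact DFunLike.congr_fun (Ring.mul_inverse_cancel _ hu) v
  have hPP : ∀ᶠ z in 𝓝 z0, ∀ u, Pi z (Pi z u) = Pi z u :=
    hs.mono fun z hz u => DFunLike.congr_fun hz.2 u
  obtain ⟨c, hc, hest⟩ := frame_est hP0.continuousAt J hJ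
  have huq : ∀ᶠ z in 𝓝 z0, ∀ u, X z (pr (Pi z u)) = Pi z u := by
    filter_upwards [hest, hpr, hPP] with z h1 h2 h3 u
    have k := h1 (X z (pr (Pi z u)) - Pi z u) (by
      change pr _ = 0
      rw [map_sub, h2, sub_self])
    have k1 : Pi z (X z (pr (Pi z u))) = X z (pr (Pi z u)) := h3 _
    rw [map_sub, k1, h3, sub_self, norm_zero, mul_zero] at k
    exact sub_eq_zero.1 (norm_le_zero_iff.1 k)
  let D : T → T →L[ℝ] T →L[ℝ] T := fun z => (fderiv ℝ Pi z).comp (Pi z)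
  let Br : T → T →L[ℝ] T →L[ℝ] T := fun z =>
    (ContinuousLinearMap.compL ℝ T T T (1 - Pi z)).comp (D z - (D z).flip)
  have hBr : Br =O[𝓝 z0] fun z => ‖τ z‖ ^ L :=
    isBigO_clm fun a => isBigO_clm fun b => (hint a b).congr' (by
      filter_upwards [hs] with z hz
      have k := fun v => ((hz.1.differentiableAt (by simp)).hasFDerivAt.clm_apply
        (hasFDerivAt_const v z)).fderiv
      simp [Br, D, VectorField.lieBracket, k]
      abel) EventuallyEq.rfl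
  obtain ⟨CB, hCB, hBr⟩ := hBr.exists_pos
  obtain ⟨Lp, t, ht, hLp⟩ := (hX.self_of_nhds.of_le (m := 1) (by simp)).exists_lipschitzOnWith
  have hρ : Tendsto (fun z => z - τ z) (𝓝 z0) (𝓝 z0) := by
    have : Continuous fun z => z - τ z := by fun_prop
    simpa [h0] using this.tendsto z0
  set N := ‖g z0‖ + 1
  set N' := ‖X z0‖ + 1
  have hsp' : ∀ u, τ (ι (pr (u - τ u))) = 0 := fun u => hsp (J.symm (u - τ u)) (by simp [hτ])
  have m1 : 0 ≤ ‖τ.comp (ι.comp pr)‖ := norm_nonneg _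
  have m2 : 0 ≤ ‖τ‖ * Lp := by positivity
  have m3 : 0 ≤ ‖τ‖ * N' * ‖pr‖ := by positivity
  have m4 : 0 ≤ c * CB * N * N := by positivity
  obtain ⟨Ph, p1, p2, p3, p4, p5, p6, C, p7⟩ := frob_core L τ hτ h0 J hX (fun v => by
      simp only [X, g, hA0, Ring.inverse_one, ContinuousLinearMap.comp_apply, one_apply_eq_self, hι]
      exact (hJ (v, 0)).2 rfl)
    (M := ‖τ.comp (ι.comp pr)‖ + ‖τ‖ * Lp + ‖τ‖ * N' * ‖pr‖ + c * CB * N * N) (by linarith)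
    (fun v y => by
      have k := hsp' (J (v, y))
      have k1 : ι (pr (J (v, y))) = J (v, 0) := by simp [pr, ι]
      rw [map_sub, map_sub, map_sub, k1, sub_eq_zero] at k
      rw [k]
      exact ((τ.comp (ι.comp pr)).le_opNorm _).trans
        (mul_le_mul_of_nonneg_right (by linarith) (norm_nonneg _)))
    (by
      filter_upwards [ht, hρ.eventually ht, hρ.eventually htan, hρ.eventually hpr,
        hρ.eventually hPP, hρ.eventually (ev_bd hX.self_of_nhds.continuousAt)]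
        with z a1 a2 a3 a4 a5 a6 v
      have k1 : τ (X (z - τ z) (pr (ι v - τ (ι v)))) = 0 :=
        a3 (by simp [hτ]) _ (a5 _) (by
          change τ (ι (pr _)) = 0
          rw [a4, hsp'])
      have k2 : τ (X z v) = τ ((X z - X (z - τ z)) v) + τ (X (z - τ z) (pr (τ (ι v)))) := by
        rw [map_sub, hpι, map_sub, map_sub, sub_eq_zero] at k1
        rw [← k1, sub_apply, map_sub, sub_add_cancel]
      have k3 : ‖X z - X (z - τ z)‖ ≤ Lp * ‖τ z‖ := by simpa using hLp.norm_sub_le a1 a2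
      have k4 : ‖τ ((X z - X (z - τ z)) v)‖ ≤ ‖τ‖ * (Lp * ‖τ z‖ * ‖v‖) :=
        τ.le_of_opNorm_le_of_le le_rfl ((X z - X (z - τ z)).le_of_opNorm_le k3 v)
      have k5 : ‖τ (X (z - τ z) (pr (τ (ι v))))‖ ≤ ‖τ‖ * (N' * (‖pr‖ * ‖τ (ι v)‖)) :=
        τ.le_of_opNorm_le_of_le le_rfl ((X (z - τ z)).le_of_opNorm_le_of_le a6 (pr.le_opNorm _))
      rw [k2, ← hι]
      refine (norm_add_le _ _).trans ?_
      have k6 : 0 ≤ ‖τ z‖ * ‖v‖ := by positivity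
      have k7 := norm_nonneg (τ (ι v))
      nlinarith [mul_nonneg m1 k6, mul_nonneg m1 k7, mul_nonneg m2 k7, mul_nonneg m3 k6,
        mul_nonneg m4 k6, mul_nonneg m4 k7])
    (by
      filter_upwards [hs, hg, hX, hpr.eventually_nhds, hPP, hest, hBr.bound,
        ev_bd hg.self_of_nhds.continuousAt] with z a1 a2 a3 a4 a5 a6 a7 a8 v w
      have d1 := ((a1.1.differentiableAt (by simp)).hasFDerivAt.clm_comp
        (a2.differentiableAt (by simp)).hasFDerivAt).fderiv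
      have d2 : ∀ a v, fderiv ℝ X z a v =
          Pi z (fderiv ℝ g z a v) + fderiv ℝ Pi z a (g z v) := fun a v => by
        rw [show fderiv ℝ X z = _ from d1]; simp
      have d3 : ∀ a v, pr (fderiv ℝ X z a v) = 0 := fun a v => by
        have k := pr.hasFDerivAt.comp z ((a3.differentiableAt (by simp)).hasFDerivAt.clm_apply
          (hasFDerivAt_const v z))
        have k' := (k.congr_of_eventuallyEq (f₁ := fun _ => v)
          (a4.mono fun y hy => (hy v).symm)).unique (hasFDerivAt_const v z)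
        simpa using DFunLike.congr_fun k' a
      have k1 := a6 (fderiv ℝ X z (X z w) v - fderiv ℝ X z (X z v) w) (by
        change pr _ = 0
        rw [map_sub, d3, d3, sub_self])
      have k2 : fderiv ℝ X z (X z w) v - fderiv ℝ X z (X z v) w -
          Pi z (fderiv ℝ X z (X z w) v - fderiv ℝ X z (X z v) w) = Br z (g z w) (g z v) := by
        simp [d2, Br, D, X, a5]
        abel
      rw [k2] at k1
      rw [norm_pow, norm_norm] at a7
      have k3 : ‖Br z (g z w) (g z v)‖ ≤ CB * ‖τ z‖ ^ L * (N * ‖w‖) * (N * ‖v‖) :=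
        (ContinuousLinearMap.le_opNorm₂ _ _ _).trans (by
          gcongr <;> exact (g z).le_of_opNorm_le a8 _)
      have k4 : 0 ≤ ‖v‖ * ‖w‖ * ‖τ z‖ ^ L := by positivity
      refine (k1.trans (mul_le_mul_of_nonneg_left k3 hc.le)).trans ?_
      nlinarith [mul_nonneg m1 k4, mul_nonneg m2 k4, mul_nonneg m3 k4])
  refine ⟨Ph, p1, p2, p3, p4, p5, p6, fun v => IsBigO.of_bound
    (|C| * (‖pr‖ * ((‖Pi z0‖ + 1) * ‖v‖))) ?_⟩
  filter_upwards [p7, huq, Ph.open_source.mem_nhds p1, ev_bd hP0.continuousAt] with z a1 a2 a3 a4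
  have d := ((p3.contDiffAt (Ph.open_source.mem_nhds a3)).differentiableAt (by simp)).hasFDerivAt
  have k := (norm_snd_le _).trans (a1 (pr (Pi z v)))
  rw [a2, Prod.snd_sub, sub_zero] at k
  rw [d.snd.fderiv, norm_pow, norm_norm]
  refine k.trans ?_
  gcongr
  · exact le_abs_self _
  · exact pr.le_of_opNorm_le_of_le le_rfl ((Pi z).le_of_opNorm_le a4 v)

/-- Euclidean space of dimension `n` -/
abbrev Eu (n : ℕ) : Type := EuclideanSpace ℝ (Fin n)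

theorem exists_param (S : Submodule ℝ T) {n : ℕ} (hn : finrank ℝ S = n) :
    ∃ j : Eu n →ₗ[ℝ] T, (∀ x, j x ∈ S) ∧ (∀ x, j x = 0 → x = 0) ∧ ∀ s ∈ S, ∃ x, j x = s := by
  let e : Eu n ≃ₗ[ℝ] S := LinearEquiv.ofFinrankEq _ _ (by simp [hn])
  exact ⟨S.subtype.comp e.toLinearMap, fun x => (e x).2, fun x hx => by simpa using hx,
    fun s hs => ⟨e.symm ⟨s, hs⟩, by simp⟩⟩

/-- a linear equivalence of finite dimensional spaces is continuous -/
def cle (f : H ≃ₗ[ℝ] T) : H ≃L[ℝ] T := f.toContinuousLinearEquiv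

/-- linear coordinates adapted to two subspaces -/
theorem adapted (R V : Submodule ℝ T) {r1 : ℕ} (hr : finrank ℝ (R ⊓ V : Submodule ℝ T) = r1) :
    ∃ (r2 k1 k2 : ℕ) (J : ((Eu r1 × Eu r2) × (Eu k1 × Eu k2)) ≃L[ℝ] T),
      r1 + r2 = finrank ℝ R ∧ (∀ p, J p ∈ R ↔ p.2 = 0) ∧ ∀ p, J p ∈ V ↔ p.1.2 = 0 ∧ p.2.2 = 0 := by
  obtain ⟨R2, d2, s2⟩ := IsModularLattice.exists_disjoint_and_sup_eq (inf_le_left : R ⊓ V ≤ R)
  obtain ⟨V2, d3, s3⟩ := IsModularLattice.exists_disjoint_and_sup_eq (inf_le_right : R ⊓ V ≤ V)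
  obtain ⟨C, d4, s4⟩ := IsModularLattice.exists_disjoint_and_sup_eq (le_top : R ⊔ V ≤ ⊤)
  obtain ⟨j1, a1, b1, c1⟩ := exists_param _ hr
  obtain ⟨j2, a2, b2, c2⟩ := exists_param R2 rfl
  obtain ⟨j3, a3, b3, c3⟩ := exists_param V2 rfl
  obtain ⟨j4, a4, b4, c4⟩ := exists_param C rfl
  have hR2 : R2 ≤ R := s2 ▸ le_sup_right
  have hV2 : V2 ≤ V := s3 ▸ le_sup_right
  rw [Submodule.disjoint_def] at d2 d3 d4
  let f := (j1.coprod j2).coprod (j3.coprod j4)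
  have hf : ∀ p, f p = j1 p.1.1 + j2 p.1.2 + (j3 p.2.1 + j4 p.2.2) := fun _ => rfl
  have hR : ∀ p, f p ∈ R ↔ p.2 = 0 := fun p => by
    rw [hf, R.add_mem_iff_right (R.add_mem (a1 _).1 (hR2 (a2 _)))]
    refine ⟨fun h => ?_, fun h => by simp [h]⟩
    have k : p.2.2 = 0 := b4 _ (d4 _ (((R ⊔ V).add_mem_iff_right
      (Submodule.mem_sup_right (hV2 (a3 _)))).1 (Submodule.mem_sup_left h)) (a4 _))
    rw [k, map_zero, add_zero] at h
    exact Prod.ext (b3 _ (d3 _ ⟨h, hV2 (a3 _)⟩ (a3 _))) k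
  have hV : ∀ p, f p ∈ V ↔ p.1.2 = 0 ∧ p.2.2 = 0 := fun p => by
    rw [hf, add_add_add_comm, V.add_mem_iff_right (V.add_mem (a1 _).2 (hV2 (a3 _)))]
    refine ⟨fun h => ?_, fun h => by simp [h]⟩
    have k : p.2.2 = 0 := b4 _ (d4 _ (((R ⊔ V).add_mem_iff_right
      (Submodule.mem_sup_left (hR2 (a2 _)))).1 (Submodule.mem_sup_right h)) (a4 _))
    rw [k, map_zero, add_zero] at h
    exact ⟨b2 _ (d2 _ ⟨hR2 (a2 _), h⟩ (a2 _)), k⟩
  have hinj : Function.Injective f := by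
    refine (injective_iff_map_eq_zero f).2 fun p hp => ?_
    have k1 := (hR p).1 (hp ▸ R.zero_mem)
    have k2 := ((hV p).1 (hp ▸ V.zero_mem)).1
    rw [hf, k1, k2] at hp
    exact Prod.ext (Prod.ext (b1 _ (by simpa using hp)) k2) k1
  have hsur : Function.Surjective f := fun t => by
    obtain ⟨u, hu, c, hc, rfl⟩ := Submodule.mem_sup.1 (s4 ▸ Submodule.mem_top : t ∈ R ⊔ V ⊔ C)
    obtain ⟨r, hr, v, hv, rfl⟩ := Submodule.mem_sup.1 hu
    obtain ⟨x, hx, y, hy, rfl⟩ := Submodule.mem_sup.1 (s2.ge hr)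
    obtain ⟨x', hx', y', hy', rfl⟩ := Submodule.mem_sup.1 (s3.ge hv)
    obtain ⟨p1, e1⟩ := c1 _ ((R ⊓ V).add_mem hx hx')
    obtain ⟨p2, rfl⟩ := c2 _ hy
    obtain ⟨p3, rfl⟩ := c3 _ hy'
    obtain ⟨p4, rfl⟩ := c4 _ hc
    exact ⟨((p1, p2), (p3, p4)), by rw [hf, e1]; abel⟩
  refine ⟨_, _, _, cle (LinearEquiv.ofBijective f ⟨hinj, hsur⟩), ?_, hR, hV⟩
  have k := Submodule.finrank_sup_add_finrank_inf_eq (R ⊓ V) R2
  rw [s2, (Submodule.disjoint_def.2 d2).eq_bot, finrank_bot, hr] at k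
  exact k.symm

omit [FiniteDimensional ℝ T] in
theorem mem_range_idem {P : T →L[ℝ] T} (h : P * P = P) {u : T} : u ∈ P.range ↔ P u = u :=
  ⟨by rintro ⟨v, rfl⟩; exact DFunLike.congr_fun h v, fun h => ⟨u, h⟩⟩

/-- adapted Frobenius chart, error in big-O form; the submanifold is the kernel of `τ` -/
theorem frobO (L : ℕ) (τ : T →L[ℝ] T) (hτ : ∀ z, τ (τ z) = τ z) {z0 : T} (h0 : τ z0 = 0)
    {Pi : T → T →L[ℝ] T} (hs : ∀ᶠ z in 𝓝 z0, ContDiffAt ℝ ∞ Pi z ∧ Pi z * Pi z = Pi z) {r1 : ℕ}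
    (hU : ∀ᶠ z in 𝓝 z0, τ z = 0 → finrank ℝ ((Pi z).range ⊓ τ.ker : Submodule ℝ T) = r1)
    (hint : ∀ v w, (fun z => (1 - Pi z) (VectorField.lieBracket ℝ (fun y => Pi y v)
      (fun y => Pi y w) z)) =O[𝓝 z0] fun z => ‖τ z‖ ^ L) :
    ∃ (r2 k1 k2 : ℕ) (Ph : OpenPartialHomeomorph T ((Eu r1 × Eu r2) × (Eu k1 × Eu k2))),
      z0 ∈ Ph.source ∧ Ph z0 = 0 ∧ ContDiffOn ℝ ∞ Ph Ph.source ∧
      ContDiffOn ℝ ∞ Ph.symm Ph.target ∧ r1 + r2 = finrank ℝ (Pi z0).range ∧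
      (∀ z ∈ Ph.source, τ z = 0 ↔ (Ph z).1.2 = 0 ∧ (Ph z).2.2 = 0) ∧
      ∀ v, (fun z => fderiv ℝ (fun y => (Ph y).2) z (Pi z v)) =O[𝓝 z0] fun z => ‖τ z‖ ^ L := by
  obtain ⟨r2, k1, k2, J, hr, hR, hV⟩ := adapted _ _ (hU.self_of_nhds h0)
  have hJ : ∀ p, Pi z0 (J p) = J p ↔ p.2 = 0 := fun p => by
    rw [← hR, mem_range_idem hs.self_of_nhds.2]
  have hV' : ∀ p, τ (J p) = 0 ↔ p.1.2 = 0 ∧ p.2.2 = 0 := hV
  obtain ⟨c, -, hest⟩ := frame_est hs.self_of_nhds.1.continuousAt J hJ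
  obtain ⟨Ph, p1, p2, p3, p4, -, p6, p7⟩ := frobJ L τ hτ h0 hs J hJ
    (fun p hp => (hV' _).2 ⟨((hV' p).1 hp).1, rfl⟩) (by
      filter_upwards [hs, hU, hest] with z a1 a2 a3 hz u hu hu'
      have hq : ∀ u, Pi z u = u → (J.symm u).1 = 0 → u = 0 := fun u h1 h2 => by
        simpa [h1] using a3 u h2
      have hv : ∀ u, τ u = 0 → (J.symm u).1.2 = 0 := fun u h => ((hV' _).1 (by simpa using h)).1
      let φ : ((Pi z).range ⊓ τ.ker : Submodule ℝ T) →ₗ[ℝ] Eu r1 :=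
        (LinearMap.fst ℝ _ _).comp ((LinearMap.fst ℝ _ _).comp
          (J.symm.toLinearEquiv.toLinearMap.comp (Submodule.subtype _)))
      have hi : Function.Injective φ := (injective_iff_map_eq_zero φ).2 fun x hx =>
        Subtype.ext (hq x ((mem_range_idem a1.2).1 x.2.1) (Prod.ext hx (hv _ x.2.2)))
      obtain ⟨x, hx⟩ := (LinearMap.injective_iff_surjective_of_finrank_eq_finrank
        (by simp [a2 hz])).1 hi (J.symm u).1.1
      have k := hq (u - x) (by rw [map_sub, hu, (mem_range_idem a1.2).1 x.2.1]) (by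
        rw [map_sub, Prod.fst_sub, sub_eq_zero]
        exact Prod.ext hx.symm (((hV' _).1 hu').1.trans (hv _ x.2.2).symm))
      rw [sub_eq_zero.1 k]
      exact x.2.2) hint
  exact ⟨r2, k1, k2, Ph, p1, p2, p3, p4, hr, fun z hz => (p6 z hz).trans (hV' _), p7⟩

omit [FiniteDimensional ℝ T] in
theorem bracket_smooth {Pi : T → T →L[ℝ] T} {z0 : T} (h : ContDiffAt ℝ ∞ Pi z0) (v w : T) :
    ContDiffAt ℝ ∞ (fun z => (1 - Pi z) (VectorField.lieBracket ℝ (fun y => Pi y v)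
      (fun y => Pi y w) z)) z0 :=
  (contDiffAt_const.sub h).clm_apply ((h.clm_apply contDiffAt_const).lieBracket_vectorField
    (h.clm_apply contDiffAt_const) (by simp))

/-- Frobenius chart adapted to `A × 0`, with an error vanishing to order `L` along `A × 0` -/
theorem frob {A Bt : Type} [NormedAddCommGroup A] [NormedSpace ℝ A] [FiniteDimensional ℝ A]
    [NormedAddCommGroup Bt] [NormedSpace ℝ Bt] [FiniteDimensional ℝ Bt] (L : ℕ) (a0 : A)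
    (Pi : A × Bt → A × Bt →L[ℝ] A × Bt)
    (hs : ∀ᶠ z in 𝓝 ((a0, 0) : A × Bt), ContDiffAt ℝ ∞ Pi z ∧ Pi z * Pi z = Pi z) (r1 : ℕ)
    (hU : ∀ᶠ a in 𝓝 a0, finrank ℝ ((Pi (a, 0)).range ⊓ LinearMap.range (LinearMap.inl ℝ A Bt) :
      Submodule ℝ (A × Bt)) = r1)
    (hint : ∀ v w, VanOn L {z : A × Bt | z.2 = 0} (a0, 0) fun z =>
      (1 - Pi z) (VectorField.lieBracket ℝ (fun y => Pi y v) (fun y => Pi y w) z)) :
    ∃ (r2 k1 k2 : ℕ) (Ph : OpenPartialHomeomorph (A × Bt) ((Eu r1 × Eu r2) × (Eu k1 × Eu k2))),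
      (a0, 0) ∈ Ph.source ∧ Ph (a0, 0) = 0 ∧ ContDiffOn ℝ ∞ Ph Ph.source ∧
      ContDiffOn ℝ ∞ Ph.symm Ph.target ∧ r1 + r2 = finrank ℝ (Pi (a0, 0)).range ∧
      (∀ z ∈ Ph.source, z.2 = 0 ↔ (Ph z).1.2 = 0 ∧ (Ph z).2.2 = 0) ∧
      ∀ v, VanOn L {z : A × Bt | z.2 = 0} (a0, 0) fun z =>
        fderiv ℝ (fun y => (Ph y).2) z (Pi z v) := by
  let τ : A × Bt →L[ℝ] A × Bt := (ContinuousLinearMap.inr ℝ A Bt).comp (ContinuousLinearMap.snd ℝ A Bt)
  have h1 : ∀ z, τ z = 0 ↔ z.2 = 0 := fun z => by simp [τ]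
  have h2 : {z : A × Bt | z.2 = 0} = {z | τ z = 0} := by simp only [h1]
  have h3 : LinearMap.range (LinearMap.inl ℝ A Bt) = τ.ker := by
    rw [LinearMap.range_inl]
    exact Submodule.ext fun z => (h1 z).symm
  have hτ : ∀ z, τ (τ z) = τ z := fun _ => rfl
  have h0 : τ (a0, 0) = 0 := (h1 _).2 rfl
  have hP := hs.self_of_nhds.1
  rw [h2] at hint ⊢
  obtain ⟨r2, k1, k2, Ph, p1, p2, p3, p4, p5, p6, p7⟩ := frobO L τ hτ h0 hs (r1 := r1) (by
      filter_upwards [(continuous_fst.tendsto ((a0, 0) : A × Bt)).eventually hU] with z hz hz0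
      rwa [← (h1 z).1 hz0, h3] at hz)
    fun v w => (hint v w).isBigO hτ h0 ((bracket_smooth hP v w).of_le (by exact_mod_cast le_top))
  refine ⟨r2, k1, k2, Ph, p1, p2, p3, p4, p5, fun z hz => (h1 z).symm.trans (p6 z hz),
    fun v => VanOn.of_isBigO ?_ (p7 v)⟩
  exact (((p3.contDiffAt (Ph.open_source.mem_nhds p1)).snd.fderiv_right (m := L)
    (by exact_mod_cast le_top)).clm_apply ((hP.of_le (by exact_mod_cast le_top)).clm_apply contDiffAt_const))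

/-- classical Frobenius theorem -/
theorem frob0 {z0 : T} (Pi : T → T →L[ℝ] T)
    (hs : ∀ᶠ z in 𝓝 z0, ContDiffAt ℝ ∞ Pi z ∧ Pi z * Pi z = Pi z)
    (hint : ∀ v w, ∀ᶠ z in 𝓝 z0,
      (1 - Pi z) (VectorField.lieBracket ℝ (fun y => Pi y v) (fun y => Pi y w) z) = 0) :
    ∃ (k : ℕ) (Ph : OpenPartialHomeomorph T (Eu (finrank ℝ (Pi z0).range) × Eu k)),
      z0 ∈ Ph.source ∧ Ph z0 = 0 ∧ ContDiffOn ℝ ∞ Ph Ph.source ∧
      ContDiffOn ℝ ∞ Ph.symm Ph.target ∧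
      ∀ z ∈ Ph.source, ∀ v, fderiv ℝ (fun y => (Ph y).2) z (Pi z v) = 0 := by
  obtain ⟨r2, k1, k2, J, hr, hR, hV⟩ := adapted (Pi z0).range ⊤ (r1 := finrank ℝ (Pi z0).range)
    (by rw [inf_top_eq])
  have hz : ∀ p : (Eu (finrank ℝ (Pi z0).range) × Eu r2) × (Eu k1 × Eu k2), p.1.2 = 0 ∧ p.2.2 = 0 :=
    fun p => (hV p).1 trivial
  let I : (Eu (finrank ℝ (Pi z0).range) × Eu k1) ≃L[ℝ] _ := ContinuousLinearEquiv.equivOfInverse
    ((ContinuousLinearMap.inl ℝ _ (Eu r2)).prodMap (ContinuousLinearMap.inl ℝ _ (Eu k2)))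
    ((ContinuousLinearMap.fst ℝ _ _).prodMap (ContinuousLinearMap.fst ℝ _ _)) (fun _ => rfl)
    fun p => Prod.ext (Prod.ext rfl (hz p).1.symm) (Prod.ext rfl (hz p).2.symm)
  obtain ⟨Ph, p1, p2, p3, p4, -, -, p7⟩ := frobJ 1 0 (fun _ => rfl) rfl hs (I.trans J)
    (fun p => by
      rw [← mem_range_idem hs.self_of_nhds.2, ContinuousLinearEquiv.trans_apply, hR]
      exact Prod.mk_eq_zero.trans (and_iff_left rfl))
    (fun _ _ => rfl) (by simp) fun v w => (isBigO_zero _ _).congr'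
      (EventuallyEq.symm (hint v w)) EventuallyEq.rfl
  have k := (isBigO_clm (B := fun z => (fderiv ℝ (fun y => (Ph y).2) z).comp (Pi z)) p7).exists_pos
  obtain ⟨c, -, k⟩ := k
  obtain ⟨O, hO, hO1, hO2⟩ := _root_.mem_nhds_iff.1 k.bound
  refine ⟨k1, Ph.restrOpen O hO1, ⟨p1, hO2⟩, p2, p3.mono inter_subset_left,
    p4.mono inter_subset_left, fun z hz v => ?_⟩
  have k2 : (fderiv ℝ (fun y => (Ph y).2) z).comp (Pi z) = 0 := by simpa using hO hz.2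
  exact DFunLike.congr_fun k2 v

/-- simultaneous straightening of commuting fields -/
theorem commuting {z0 : T} (J : (H × K) ≃L[ℝ] T) {X : T → H →L[ℝ] T}
    (hX : ∀ᶠ z in 𝓝 z0, ContDiffAt ℝ ∞ X z) (hX0 : ∀ v, X z0 v = J (v, 0))
    (hc : ∀ᶠ z in 𝓝 z0, ∀ v w, fderiv ℝ X z (X z w) v = fderiv ℝ X z (X z v) w) :
    ∃ Ph : OpenPartialHomeomorph T (H × K), z0 ∈ Ph.source ∧ Ph z0 = 0 ∧
      ContDiffOn ℝ ∞ Ph Ph.source ∧ ContDiffOn ℝ ∞ Ph.symm Ph.target ∧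
      fderiv ℝ Ph.symm 0 = J ∧ ∀ z ∈ Ph.source, ∀ w, fderiv ℝ Ph z (X z w) = (w, 0) := by
  obtain ⟨Ph, p1, p2, p3, p4, p5, -, C, p7⟩ := frob_core 1 0 (fun _ => rfl) rfl J hX hX0 le_rfl
    (by simp) (by simp) (hc.mono fun z hz v w => by simp [hz v w])
  obtain ⟨O, hO, hO1, hO2⟩ := _root_.mem_nhds_iff.1 p7
  exact ⟨Ph.restrOpen O hO1, ⟨p1, hO2⟩, p2, p3.mono inter_subset_left,
    p4.mono inter_subset_left, p5, fun z hz w => by simpa [sub_eq_zero] using hO hz.2 w⟩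

/-- flow box -/
theorem flowBox {z0 : T} (J : (ℝ × K) ≃L[ℝ] T) {V : T → T}
    (hV : ∀ᶠ z in 𝓝 z0, ContDiffAt ℝ ∞ V z) (hV0 : V z0 = J (1, 0)) :
    ∃ Ph : OpenPartialHomeomorph T (ℝ × K), z0 ∈ Ph.source ∧ Ph z0 = 0 ∧
      ContDiffOn ℝ ∞ Ph Ph.source ∧ ContDiffOn ℝ ∞ Ph.symm Ph.target ∧
      fderiv ℝ Ph.symm 0 = J ∧ ∀ z ∈ Ph.source, fderiv ℝ Ph z (V z) = (1, 0) := by
  let S : T →L[ℝ] ℝ →L[ℝ] T := ContinuousLinearMap.smulRightL ℝ ℝ T (ContinuousLinearMap.id ℝ ℝ)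
  have hS : ∀ u t, S u t = t • u := fun _ _ => rfl
  obtain ⟨Ph, p1, p2, p3, p4, p5, p6⟩ := commuting J (X := fun z => S (V z))
    (hV.mono fun z hz => S.contDiff.contDiffAt.comp z hz)
    (fun v => by rw [hS, hV0, ← map_smul]; simp) (hV.mono fun z hz v w => by
      have k := (S.hasFDerivAt.comp z (hz.differentiableAt (by simp)).hasFDerivAt).fderiv
      rw [show fderiv ℝ (fun z => S (V z)) z = _ from k]
      simp [hS, smul_smul, mul_comm])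
  exact ⟨Ph, p1, p2, p3, p4, p5, fun z hz => by simpa [hS] using p6 z hz 1⟩

end Vale.Agent.P207Z.An
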