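import Mathlib
import Vale.Agent.P255.Bdl.B2

/-!
# Straightening a frame of almost commuting vector fields by the radial flow
-/

open Set Metric Filter Topology
open scoped ContDiff

noncomputable section

namespace Vale.Agent.P207Z.An

section Gen

variable {E F : Type} [NormedAddCommGroup E] [NormedSpace ℝ E] [NormedAddCommGroup F]
  [NormedSpace ℝ F]

theorem gron {u u' : ℝ → F} {K e : ℝ} (hK : 0 ≤ K) (he : 0 ≤ e)
    (hd : ∀ t ∈ Icc (0 : ℝ) 1, HasDerivAt u (u' t) t)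
    (hb : ∀ t ∈ Icc (0 : ℝ) 1, ‖u' t‖ ≤ K * ‖u t‖ + e) :
    ∀ t ∈ Icc (0 : ℝ) 1, ‖u t‖ ≤ (‖u 0‖ + e) * Real.exp (K + 1) := by
  intro t ht
  have h := norm_le_gronwallBound_of_norm_deriv_right_le (δ := ‖u 0‖) (K := K + 1) (ε := e)
    (fun s hs => (hd s hs).continuousAt.continuousWithinAt)
    (fun s hs => (hd s (Ico_subset_Icc_self hs)).hasDerivWithinAt) le_rfl
    (fun s hs => (hb s (Ico_subset_Icc_self hs)).trans (by nlinarith [norm_nonneg (u s)])) t ht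
  rw [gronwallBound_of_K_ne_0 (by linarith), sub_zero] at h
  have h1 : Real.exp ((K + 1) * t) ≤ Real.exp (K + 1) :=
    Real.exp_le_exp.2 (by nlinarith [ht.1, ht.2])
  have h2 : e / (K + 1) ≤ e := div_le_self he (by linarith)
  have h3 : 0 ≤ e / (K + 1) := by positivity
  have h4 : 1 ≤ Real.exp ((K + 1) * t) := Real.one_le_exp (by nlinarith [ht.1])
  have h5 : e / (K + 1) * (Real.exp ((K + 1) * t) - 1) ≤ e * Real.exp (K + 1) :=
    mul_le_mul h2 (by linarith) (by linarith) he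
  have h6 := mul_le_mul_of_nonneg_left h1 (norm_nonneg (u 0))
  simp only at h
  linarith

theorem gron_const {u : ℝ → F} (hd : ∀ t ∈ Icc (0 : ℝ) 1, HasDerivAt u 0 t) :
    ∀ t ∈ Icc (0 : ℝ) 1, u t = u 0 := fun t ht => by
  have h := gron (u := fun s => u s - u 0) (u' := fun _ => 0) le_rfl le_rfl
    (fun s hs => (hd s hs).sub_const _) (fun s _ => by simp) t ht
  simpa [sub_eq_zero] using h

/-- smooth inverse function theorem with a prescribed small source -/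
theorem exists_diffeo [CompleteSpace E] {f : E → F} {a : E} (hf : ∀ᶠ x in 𝓝 a, ContDiffAt ℝ ∞ f x)
    (J : E ≃L[ℝ] F) (hJ : fderiv ℝ f a = J) {s : Set E} (hs : s ∈ 𝓝 a) :
    ∃ e : OpenPartialHomeomorph E F, ⇑e = f ∧ a ∈ e.source ∧ e.source ⊆ s ∧
      ContDiffOn ℝ ∞ e e.source ∧ ContDiffOn ℝ ∞ e.symm e.target := by
  have h0 := hf.self_of_nhds
  have hd : HasFDerivAt f (J : E →L[ℝ] F) a := hJ ▸ (h0.differentiableAt (by simp)).hasFDerivAt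
  have hst : HasStrictFDerivAt f (J : E →L[ℝ] F) a := h0.hasStrictFDerivAt' hd (by simp)
  have hinv : ∀ᶠ q in 𝓝 a, fderiv ℝ f q ∈ range ((↑) : (E ≃L[ℝ] F) → (E →L[ℝ] F)) := by
    have hc : ContinuousAt (fderiv ℝ f) a :=
      (h0.fderiv_right (m := 0) (by simp)).continuousAt
    have hn := J.nhds
    rw [← hJ] at hn
    exact hc hn
  obtain ⟨O, hOs, hO, haO⟩ := _root_.mem_nhds_iff.1 (hinv.and (hf.and hs))
  refine ⟨(hst.toOpenPartialHomeomorph f).restrOpen O hO, rfl,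
    ⟨hst.mem_toOpenPartialHomeomorph_source, haO⟩, fun x hx => (hOs hx.2).2.2,
    fun x hx => (hOs hx.2).2.1.contDiffWithinAt, fun y hy => ?_⟩
  have hys := OpenPartialHomeomorph.map_target _ hy
  obtain ⟨⟨L, hL⟩, h2, -⟩ := hOs hys.2
  refine (OpenPartialHomeomorph.contDiffAt_symm _ hy (f₀' := L) ?_ h2).contDiffWithinAt
  rw [hL]
  exact (h2.differentiableAt (by simp)).hasFDerivAt

end Gen

variable {T H K : Type} [NormedAddCommGroup T] [NormedSpace ℝ T] [FiniteDimensional ℝ T]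
  [NormedAddCommGroup H] [NormedSpace ℝ H] [FiniteDimensional ℝ H]
  [NormedAddCommGroup K] [NormedSpace ℝ K] [FiniteDimensional ℝ K]

/-- the augmented field -/
def aug (X : T → H →L[ℝ] T) (x : H × T) : H × T := (0, X x.2 x.1)

omit [FiniteDimensional ℝ T] [FiniteDimensional ℝ H] in
theorem aug_smooth {X : T → H →L[ℝ] T} {O : Set T} (hX : ContDiffOn ℝ ∞ X O) :
    ContDiffOn ℝ ∞ (aug X) (univ ×ˢ O) :=
  contDiffOn_const.prodMk ((hX.comp contDiffOn_snd fun _ hx => hx.2).clm_apply contDiffOn_fst)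

theorem radial {X : T → H →L[ℝ] T} {O : Set T} (hO : IsOpen O) (hX : ContDiffOn ℝ ∞ X O)
    {z0 : T} (h0 : z0 ∈ O) :
    ∃ W : Set (H × T), IsOpen W ∧ (0, z0) ∈ W ∧ ∃ Φ : ℝ → H × T → H × T,
      (∀ t x, (Φ t x).1 = x.1) ∧ (∀ x ∈ W, ‖x.1‖ ≤ 1) ∧ (∀ x ∈ W, Φ 0 x = x) ∧
      (∀ x ∈ W, ∀ t ∈ Ioo (-2 : ℝ) 2, Φ t x ∈ univ ×ˢ O ∧
        HasDerivAt (fun s => Φ s x) (aug X (Φ t x)) t) ∧
      ContDiffOn ℝ ∞ (fun p : ℝ × (H × T) => Φ p.1 p.2) (Ioo (-2 : ℝ) 2 ×ˢ W) := by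
  obtain ⟨ε, hε, W, hW, hW0, Φ, h1, h2, h3⟩ := P255.exists_flow_smooth (aug X) (univ ×ˢ O)
    (isOpen_univ.prod hO) (aug_smooth hX) (0, z0) ⟨trivial, h0⟩
  have hfst : ∀ x ∈ W, ∀ t ∈ Ioo (-ε) ε, (Φ t x).1 = x.1 := fun x hx t ht => by
    have hd : ∀ s ∈ Ioo (-ε) ε, HasDerivAt (fun s => (Φ s x).1) 0 s := fun s hs =>
      (ContinuousLinearMap.fst ℝ H T).hasFDerivAt.comp_hasDerivAt s (h2 x hx s hs).2
    have := isOpen_Ioo.is_const_of_deriv_eq_zero (f := fun s => (Φ s x).1)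
      (convex_Ioo (-ε) ε).isPreconnected
      (fun s hs => (hd s hs).differentiableAt.differentiableWithinAt)
      (fun s hs => (hd s hs).deriv) ht (show (0 : ℝ) ∈ Ioo (-ε) ε from ⟨by linarith, hε⟩)
    simpa [h1 x hx] using this
  set δ := ε / 2 with hδ
  have hδ0 : 0 < δ := by positivity
  have hm : ∀ t ∈ Ioo (-2 : ℝ) 2, δ * t ∈ Ioo (-ε) ε := fun t ht =>
    ⟨by nlinarith [ht.1], by nlinarith [ht.2]⟩
  let sc : H × T → H × T := fun x => (δ⁻¹ • x.1, x.2)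
  have hsc : ContDiff ℝ ∞ sc := (contDiff_fst.const_smul _).prodMk contDiff_snd
  refine ⟨sc ⁻¹' W ∩ {x | ‖x.1‖ < 1}, (hW.preimage hsc.continuous).inter
    (isOpen_lt (by fun_prop) continuous_const), ⟨by simpa [sc] using hW0, by simp⟩,
    fun t x => (x.1, (Φ (δ * t) (sc x)).2), fun _ _ => rfl, fun x hx => hx.2.le,
    fun x hx => by simp [h1 _ hx.1, sc], fun x hx t ht => ⟨⟨trivial, (h2 _ hx.1 _ (hm t ht)).1.2⟩,
    ?_⟩, contDiffOn_snd.fst.prodMk (ContDiffOn.snd ?_)⟩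
  · have e1 := (h2 _ hx.1 _ (hm t ht)).2.scomp t ((hasDerivAt_id t).const_mul δ)
    have e2 := (ContinuousLinearMap.snd ℝ H T).hasFDerivAt.comp_hasDerivAt t e1
    refine ((hasDerivAt_const t x.1).prodMk e2).congr_deriv ?_
    simp [aug, hfst _ hx.1 _ (hm t ht), sc, smul_smul, hδ0.ne']
  · exact h3.comp (f := fun p : ℝ × (H × T) => (δ * p.1, sc p.2))
      ((contDiff_const.mul contDiff_fst).prodMk (hsc.comp contDiff_snd)).contDiffOn
      fun p hp => ⟨hm _ hp.1, hp.2.1⟩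

theorem theta {X : T → H →L[ℝ] T} {O : Set T} (hO : IsOpen O) (hX : ContDiffOn ℝ ∞ X O)
    {W : Set (H × T)} (hW : IsOpen W) {Φ : ℝ → H × T → H × T} (hf : ∀ t x, (Φ t x).1 = x.1)
    (h2 : ∀ x ∈ W, ∀ t ∈ Ioo (-2 : ℝ) 2, Φ t x ∈ univ ×ˢ O ∧
        HasDerivAt (fun s => Φ s x) (aug X (Φ t x)) t)
    (h3 : ContDiffOn ℝ ∞ (fun p : ℝ × (H × T) => Φ p.1 p.2) (Ioo (-2 : ℝ) 2 ×ˢ W))
    {x : H × T} (hx : x ∈ W) (w : H) (u : T) {t : ℝ} (ht : t ∈ Ioo (-2 : ℝ) 2) :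
    HasDerivAt (fun s => (fderiv ℝ (Φ s) x (w, u)).2 - s • X (Φ s x).2 w)
      (fderiv ℝ X (Φ t x).2 ((fderiv ℝ (Φ t) x (w, u)).2 - t • X (Φ t x).2 w) x.1 +
        t • (fderiv ℝ X (Φ t x).2 (X (Φ t x).2 w) x.1 -
          fderiv ℝ X (Φ t x).2 (X (Φ t x).2 x.1) w)) t := by
  have e1 := P255.variational (isOpen_univ.prod hO) (aug_smooth hX) hW h2 h3 hx (w, u) ht
  have hXd : HasFDerivAt X (fderiv ℝ X (Φ t x).2) (Φ t x).2 :=
    ((hX.contDiffAt (hO.mem_nhds (h2 x hx t ht).1.2)).differentiableAt (by simp)).hasFDerivAt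
  have hΦ : DifferentiableAt ℝ (Φ t) x := by
    have k1 : ContDiffAt ℝ ∞ (fun y : H × T => ((t, y) : ℝ × (H × T))) x :=
      contDiffAt_const.prodMk contDiffAt_id
    have k2 := ContDiffAt.comp (g := fun p : ℝ × (H × T) => Φ p.1 p.2) x
      (h3.contDiffAt ((isOpen_Ioo.prod hW).mem_nhds ⟨ht, hx⟩)) k1
    exact k2.differentiableAt (by simp)
  have e2 : (fderiv ℝ (Φ t) x (w, u)).1 = w := by
    have := hΦ.hasFDerivAt.fst
    simp only [hf] at this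
    exact (DFunLike.congr_fun (this.unique hasFDerivAt_fst) (w, u) :)
  have k3 : HasFDerivAt (fun y : H × T => X y.2)
      ((fderiv ℝ X (Φ t x).2).comp (ContinuousLinearMap.snd ℝ H T)) (Φ t x) :=
    HasFDerivAt.comp (g := X) (f := Prod.snd) (Φ t x) hXd hasFDerivAt_snd
  have e3 : HasFDerivAt (aug X) _ (Φ t x) := (hasFDerivAt_const (0 : H) _).prodMk
    (k3.clm_apply hasFDerivAt_fst)
  have e4 : HasDerivAt (fun s => (fderiv ℝ (Φ s) x (w, u)).2)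
      (fderiv ℝ (aug X) (Φ t x) (fderiv ℝ (Φ t) x (w, u))).2 t :=
    (ContinuousLinearMap.snd ℝ H T).hasFDerivAt.comp_hasDerivAt t e1
  have e5 : HasDerivAt (fun s => (Φ s x).2) (X (Φ t x).2 (Φ t x).1) t :=
    (ContinuousLinearMap.snd ℝ H T).hasFDerivAt.comp_hasDerivAt t (h2 x hx t ht).2
  have e7 : HasDerivAt (fun s => X (Φ s x).2) (fderiv ℝ X (Φ t x).2 (X (Φ t x).2 (Φ t x).1)) t :=
    HasFDerivAt.comp_hasDerivAt (l := X) (f := fun s => (Φ s x).2) t hXd e5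
  have e6 := e7.clm_apply (hasDerivAt_const t w)
  refine (e4.sub ((hasDerivAt_id t).smul e6)).congr_deriv ?_
  simp [e3.fderiv, e2, hf, smul_sub]
  abel

omit [FiniteDimensional ℝ K] in
/-- the radial map and its estimates -/
theorem exists_psi (L : ℕ) (τ : T →L[ℝ] T) {z0 : T} (h0 : τ z0 = 0)
    (J : (H × K) ≃L[ℝ] T) {X : T → H →L[ℝ] T} (hX : ∀ᶠ z in 𝓝 z0, ContDiffAt ℝ ∞ X z)
    (hX0 : ∀ v, X z0 v = J (v, 0)) {M : ℝ} (hM : 0 ≤ M)
    (hs : ∀ v y, ‖τ (J (v, 0))‖ ≤ M * ‖τ (J (v, y))‖)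
    (hb : ∀ᶠ z in 𝓝 z0, ∀ v, ‖τ (X z v)‖ ≤ M * (‖τ z‖ * ‖v‖ + ‖τ (J (v, 0))‖))
    (hc : ∀ᶠ z in 𝓝 z0, ∀ v w, ‖fderiv ℝ X z (X z w) v - fderiv ℝ X z (X z v) w‖ ≤
      M * ‖v‖ * ‖w‖ * ‖τ z‖ ^ L) :
    ∃ Ψ : H × K → T, Ψ 0 = z0 ∧ fderiv ℝ Ψ 0 = J ∧ ∃ C, 0 ≤ C ∧ ∀ᶠ p in 𝓝 (0 : H × K),
      ContDiffAt ℝ ∞ Ψ p ∧ ‖τ (Ψ p)‖ ≤ C * ‖τ (J p)‖ ∧
        ∀ w, ‖fderiv ℝ Ψ p (w, 0) - X (Ψ p) w‖ ≤ C * ‖w‖ * ‖τ (J p)‖ ^ L := by
  have hD : ∀ᶠ z in 𝓝 z0, ‖fderiv ℝ X z‖ < ‖fderiv ℝ X z0‖ + 1 :=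
    (hX.self_of_nhds.fderiv_right (m := 0) (by simp)).continuousAt.norm.eventually
      (Iio_mem_nhds (lt_add_one _))
  set N := ‖fderiv ℝ X z0‖ + 1 with hN
  have hN0 : 0 ≤ N := by positivity
  obtain ⟨O, hOs, hO, hz0⟩ := _root_.mem_nhds_iff.1 (hX.and (hb.and (hc.and hD)))
  have hXO : ContDiffOn ℝ ∞ X O := fun z hz => (hOs hz).1.contDiffWithinAt
  obtain ⟨W, hW, hW0, Φ, hf, hv1, h1, h2, h3⟩ := radial hO hXO hz0
  have hI : ∀ t ∈ Icc (0 : ℝ) 1, t ∈ Ioo (-2 : ℝ) 2 := fun t ht =>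
    ⟨by linarith [ht.1], by linarith [ht.2]⟩
  have h01 : (1 : ℝ) ∈ Icc (0 : ℝ) 1 := ⟨zero_le_one, le_rfl⟩
  have hz : ∀ x ∈ W, ∀ t ∈ Icc (0 : ℝ) 1, HasDerivAt (fun s => (Φ s x).2) (X (Φ t x).2 x.1) t :=
    fun x hx t ht => by
      rw [← hf t x]
      exact (ContinuousLinearMap.snd ℝ H T).hasFDerivAt.comp_hasDerivAt t (h2 x hx t (hI t ht)).2
  have hΦ0 : ∀ x ∈ W, fderiv ℝ (Φ 0) x = ContinuousLinearMap.id ℝ _ := fun x hx => by
    have : Φ 0 =ᶠ[𝓝 x] id := by filter_upwards [hW.mem_nhds hx] with y hy using h1 y hy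
    rw [this.fderiv_eq, fderiv_id]
  let κL : H × K →L[ℝ] H × T := (ContinuousLinearMap.fst ℝ H K).prod
    ((J : H × K →L[ℝ] T).comp ((ContinuousLinearMap.inr ℝ H K).comp (ContinuousLinearMap.snd ℝ H K)))
  let κ : H × K → H × T := fun p => (p.1, z0 + J (0, p.2))
  have hκ : ∀ p, HasFDerivAt κ κL p := fun p => by
    have := κL.hasFDerivAt (x := p) |>.const_add ((0 : H), z0)
    refine this.congr_of_eventuallyEq (Eventually.of_forall fun q => ?_)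
    simp [κ, κL]
  have hκs : ContDiff ℝ ∞ κ := by
    refine contDiff_fst.prodMk (contDiff_const.add (J.contDiff.comp ?_))
    exact contDiff_const.prodMk contDiff_snd
  have hκ0 : κ 0 = (0, z0) := by simp [κ, Prod.mk_zero_zero]
  have hΦ1 : ∀ x ∈ W, ContDiffAt ℝ ∞ (Φ 1) x := fun x hx => by
    have k1 : ContDiffAt ℝ ∞ (fun y : H × T => ((1, y) : ℝ × (H × T))) x :=
      contDiffAt_const.prodMk contDiffAt_id
    exact ContDiffAt.comp (g := fun p : ℝ × (H × T) => Φ p.1 p.2) x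
      (h3.contDiffAt ((isOpen_Ioo.prod hW).mem_nhds ⟨hI 1 h01, hx⟩)) k1
  have hΨd : ∀ p, κ p ∈ W → ∀ q, fderiv ℝ (fun p => (Φ 1 (κ p)).2) p q =
      (fderiv ℝ (Φ 1) (κ p) (q.1, J (0, q.2))).2 := fun p hp q => by
    have k := (((hΦ1 _ hp).differentiableAt (by simp)).hasFDerivAt.comp p (hκ p)).snd
    exact (DFunLike.congr_fun k.fderiv q :)
  have hc0 : ∀ t ∈ Icc (0 : ℝ) 1, (Φ t (0, z0)).2 = z0 := fun t ht => by
    rw [gron_const (u := fun s => (Φ s (0, z0)).2) (fun s hs => by simpa using hz _ hW0 s hs) t ht,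
      h1 _ hW0]
  set C1 := (M + 1 + M * M) * Real.exp (M + 1) with hC1
  have hA : ∀ p, κ p ∈ W → ∀ t ∈ Icc (0 : ℝ) 1, ‖τ (Φ t (κ p)).2‖ ≤ C1 * ‖τ (J p)‖ := by
    intro p hp t ht
    have k1 := hs p.1 p.2
    have k2 : ‖τ (J (0, p.2))‖ ≤ (M + 1) * ‖τ (J p)‖ := by
      have : τ (J (0, p.2)) = τ (J p) - τ (J (p.1, 0)) := by
        rw [← map_sub, ← map_sub]; congr 2; ext <;> simp
      rw [this]
      linarith [norm_sub_le (τ (J p)) (τ (J (p.1, 0)))]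
    have k3 := gron (u := fun s => τ (Φ s (κ p)).2) (u' := fun s => τ (X (Φ s (κ p)).2 p.1))
      (K := M) (e := M * (M * ‖τ (J p)‖)) hM (by positivity)
      (fun s hs => τ.hasFDerivAt.comp_hasDerivAt s (hz _ hp s hs)) (fun s hs => by
        refine ((hOs (h2 _ hp s (hI s hs)).1.2).2.1 p.1).trans ?_
        have k4 : ‖τ (Φ s (κ p)).2‖ * ‖p.1‖ ≤ ‖τ (Φ s (κ p)).2‖ :=
          mul_le_of_le_one_right (norm_nonneg _) (hv1 _ hp)
        rw [← mul_add]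
        exact mul_le_mul_of_nonneg_left (add_le_add k4 k1) hM) t ht
    refine k3.trans ?_
    rw [h1 _ hp, hC1, mul_right_comm]
    refine mul_le_mul_of_nonneg_right ?_ (Real.exp_pos _).le
    simp only [κ, map_add, h0, zero_add]
    linarith
  have hC10 : 0 ≤ C1 := by positivity
  refine ⟨fun p => (Φ 1 (κ p)).2, by simp only [hκ0]; exact hc0 1 h01, ?_,
    C1 + M * C1 ^ L * Real.exp (N + 1), by positivity, ?_⟩
  · refine ContinuousLinearMap.ext fun q => ?_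
    rw [hΨd 0 (hκ0 ▸ hW0), hκ0]
    have k := gron_const (fun s hs => by
      simpa using theta hO hXO hW hf h2 h3 hW0 q.1 (J (0, q.2)) (hI s hs)) 1 h01
    simp only [hΦ0 _ hW0, hc0 1 h01, hX0, one_smul, zero_smul, sub_zero, sub_eq_iff_eq_add] at k
    rw [k]
    simp [← map_add]
  filter_upwards [hκs.continuous.continuousAt.eventually (hW.mem_nhds (hκ0 ▸ hW0))] with p hp
  refine ⟨((hΦ1 _ hp).comp p hκs.contDiffAt).snd, (hA p hp 1 h01).trans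
    (mul_le_mul_of_nonneg_right (le_add_of_nonneg_right (by positivity)) (norm_nonneg _)),
    fun w => ?_⟩
  have k := gron (K := N) (e := M * ‖w‖ * (C1 * ‖τ (J p)‖) ^ L) hN0 (by positivity)
    (fun s hs => theta hO hXO hW hf h2 h3 hp w 0 (hI s hs)) (fun s hs => by
      obtain ⟨-, -, k1, k2⟩ := hOs (h2 _ hp s (hI s hs)).1.2
      have k0 := hv1 _ hp
      refine (norm_add_le _ _).trans (add_le_add ?_ ?_)
      · refine (ContinuousLinearMap.le_opNorm₂ _ _ _).trans ?_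
        exact (mul_le_of_le_one_right (by positivity) k0).trans
          (mul_le_mul_of_nonneg_right k2.le (norm_nonneg _))
      · rw [norm_smul, Real.norm_of_nonneg hs.1]
        refine (mul_le_of_le_one_left (norm_nonneg _) hs.2).trans ((k1 _ w).trans ?_)
        have k3 := hA p hp s hs
        gcongr
        exact mul_le_of_le_one_right hM k0) 1 h01
  rw [hΨd p hp]
  simp only [hΦ0 _ hp, one_smul, zero_smul, sub_zero, ContinuousLinearMap.id_apply, norm_zero,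
    zero_add] at k
  simp only [Prod.mk_zero_zero, map_zero]
  refine k.trans ?_
  rw [mul_pow]
  have : 0 ≤ C1 * ‖w‖ * ‖τ (J p)‖ ^ L := by positivity
  nlinarith

theorem frob_core (L : ℕ) (τ : T →L[ℝ] T) (hτ : ∀ z, τ (τ z) = τ z) {z0 : T} (h0 : τ z0 = 0)
    (J : (H × K) ≃L[ℝ] T) {X : T → H →L[ℝ] T} (hX : ∀ᶠ z in 𝓝 z0, ContDiffAt ℝ ∞ X z)
    (hX0 : ∀ v, X z0 v = J (v, 0)) {M : ℝ} (hM : 0 ≤ M)
    (hs : ∀ v y, ‖τ (J (v, 0))‖ ≤ M * ‖τ (J (v, y))‖)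
    (hb : ∀ᶠ z in 𝓝 z0, ∀ v, ‖τ (X z v)‖ ≤ M * (‖τ z‖ * ‖v‖ + ‖τ (J (v, 0))‖))
    (hc : ∀ᶠ z in 𝓝 z0, ∀ v w, ‖fderiv ℝ X z (X z w) v - fderiv ℝ X z (X z v) w‖ ≤
      M * ‖v‖ * ‖w‖ * ‖τ z‖ ^ L) :
    ∃ Ph : OpenPartialHomeomorph T (H × K), z0 ∈ Ph.source ∧ Ph z0 = 0 ∧
      ContDiffOn ℝ ∞ Ph Ph.source ∧ ContDiffOn ℝ ∞ Ph.symm Ph.target ∧
      fderiv ℝ Ph.symm 0 = J ∧ (∀ z ∈ Ph.source, τ z = 0 ↔ τ (J (Ph z)) = 0) ∧
      ∃ C, ∀ᶠ z in 𝓝 z0, ∀ w, ‖fderiv ℝ Ph z (X z w) - (w, 0)‖ ≤ C * ‖w‖ * ‖τ z‖ ^ L := by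
  obtain ⟨Ψ, hΨ0, hΨJ, C, hC, hΨ⟩ := exists_psi L τ h0 J hX hX0 hM hs hb hc
  have hsm := hΨ.mono fun p hp => hp.1
  have hst : HasStrictFDerivAt Ψ (J : H × K →L[ℝ] T) 0 :=
    hΨJ ▸ hsm.self_of_nhds.hasStrictFDerivAt (by simp)
  set c := ‖τ‖ * ‖(J.symm : T →L[ℝ] H × K)‖ + 1 with hcd
  have hc0 : 0 < c := by positivity
  let ρ : H × K → H × K := fun p => p - J.symm (τ (J p))
  have hρ : Tendsto ρ (𝓝 0) (𝓝 0) := by
    have : Continuous ρ := by fun_prop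
    simpa [ρ] using this.tendsto 0
  have hlow : ∀ᶠ p in 𝓝 (0 : H × K), ‖τ (J p)‖ ≤ 2 * ‖τ (Ψ p)‖ := by
    have k := (tendsto_id.prodMk_nhds hρ).eventually
      (hst.isLittleO.def (c := 1 / (2 * c)) (by positivity))
    filter_upwards [k, hρ.eventually hΨ] with p hp hq
    have k1 : τ (J (ρ p)) = 0 := by simp [ρ, hτ]
    have k2 : τ (Ψ (ρ p)) = 0 := by simpa [k1] using hq.2.1
    have k3 : p - ρ p = J.symm (τ (J p)) := by simp [ρ]
    have k4 := τ.le_of_opNorm_le_of_le le_rfl hp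
    simp only [id, k3, map_sub, k2, sub_zero, ContinuousLinearEquiv.coe_coe,
      ContinuousLinearEquiv.apply_symm_apply, hτ] at k4
    have k5 := (J.symm : T →L[ℝ] H × K).le_opNorm (τ (J p))
    have k6 : ‖τ‖ * (1 / (2 * c) * ‖J.symm (τ (J p))‖) ≤ 1 / 2 * ‖τ (J p)‖ := by
      calc _ ≤ ‖τ‖ * (1 / (2 * c) * (‖(J.symm : T →L[ℝ] H × K)‖ * ‖τ (J p)‖)) := by
            gcongr; exact k5
        _ = (c - 1) / c * (1 / 2 * ‖τ (J p)‖) := by rw [hcd]; field_simp; ring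
        _ ≤ _ := mul_le_of_le_one_left (by positivity) ((div_le_one hc0).2 (by linarith))
    linarith [norm_sub_norm_le (τ (J p)) (τ (Ψ p)), norm_sub_rev (τ (J p)) (τ (Ψ p))]
  have : CompleteSpace (H × K) := FiniteDimensional.complete ℝ _
  obtain ⟨e, he, h0e, hes, e1, e2⟩ := exists_diffeo hsm J hΨJ (hΨ.and hlow)
  have hz0 : z0 ∈ e.target := by rw [← hΨ0, ← he]; exact e.map_source h0e
  have hr : ∀ z ∈ e.target, Ψ (e.symm z) = z := fun z hz => by rw [← he]; exact e.right_inv hz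
  refine ⟨e.symm, hz0, by rw [← hΨ0, ← he]; exact e.left_inv h0e, e2, e1, by
    rw [OpenPartialHomeomorph.symm_symm, he, hΨJ], fun z hz => ?_, ?_⟩
  · obtain ⟨⟨-, k1, -⟩, k2⟩ := hes (e.map_target hz)
    rw [hr z hz] at k1 k2
    exact ⟨fun h => by simpa [h] using k2, fun h => by simpa [h] using k1⟩
  have hD : ∀ᶠ z in 𝓝 z0, ‖fderiv ℝ e.symm z‖ < ‖fderiv ℝ e.symm z0‖ + 1 :=
    ((e2.contDiffAt (e.open_target.mem_nhds hz0)).fderiv_right (m := 0)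
      (by simp)).continuousAt.norm.eventually (Iio_mem_nhds (lt_add_one _))
  refine ⟨(‖fderiv ℝ e.symm z0‖ + 1) * C * 2 ^ L, ?_⟩
  filter_upwards [hD, e.open_target.mem_nhds hz0] with z hz1 hz w
  have hp := e.map_target hz
  obtain ⟨⟨k0, -, k1⟩, k2⟩ := hes hp
  have k3 : HasFDerivAt e.symm (fderiv ℝ e.symm z) (Ψ (e.symm z)) := by
    rw [hr z hz]
    exact ((e2.contDiffAt (e.open_target.mem_nhds hz)).differentiableAt (by simp)).hasFDerivAt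
  have k4 := k3.comp _ (k0.differentiableAt (by simp)).hasFDerivAt
  have k5 : (e.symm ∘ Ψ) =ᶠ[𝓝 (e.symm z)] id := by
    filter_upwards [e.open_source.mem_nhds hp] with q hq
    rw [← he]; exact e.left_inv hq
  have k6 := DFunLike.congr_fun ((k4.congr_of_eventuallyEq k5.symm).unique (hasFDerivAt_id _)) (w, 0)
  have k7 := k1 w
  rw [hr z hz] at k2 k7
  simp only [ContinuousLinearMap.comp_apply, ContinuousLinearMap.id_apply] at k6
  rw [← k6, ← map_sub, ← norm_neg, ← map_neg, neg_sub]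
  refine (ContinuousLinearMap.le_opNorm _ _).trans ?_
  calc _ ≤ (‖fderiv ℝ e.symm z0‖ + 1) * (C * ‖w‖ * (2 * ‖τ z‖) ^ L) := by
        gcongr
        exact k7.trans (by gcongr)
    _ = _ := by rw [mul_pow]; ring

end Vale.Agent.P207Z.An
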