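import Vale.Agent.P207Z.An.LK

/-!
# Fast approximation by smooth maps gives smoothness
-/

open Set Metric Filter Topology
open scoped ContDiff

noncomputable section

namespace Vale.Agent.P207Z.An

universe u

theorem unif_of_summable {X F : Type*} [NormedAddCommGroup F] {U : Set X} {g : ℕ → X → F}
    {G : X → F} {u : ℕ → ℝ} (hu : Summable u)
    (hb : ∀ n, ∀ y ∈ U, ‖g (n + 1) y - g n y‖ ≤ u n)
    (hl : ∀ y ∈ U, Tendsto (fun n => g n y) atTop (𝓝 (G y))) :
    TendstoUniformlyOn g G atTop U := by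
  rw [Metric.tendstoUniformlyOn_iff]
  intro ε hε
  filter_upwards [(tendsto_sum_nat_add u).eventually (gt_mem_nhds hε)] with n hn y hy
  have h := dist_le_tsum_of_dist_le_of_tendsto u
    (fun n => by rw [dist_comm, dist_eq_norm]; exact hb n y hy) hu (hl y hy) n
  rw [dist_comm]
  refine h.trans_lt ?_
  simpa only [add_comm] using hn

/-- convergence of all derivatives of order at most `j` -/
theorem contDiffOn_of_summable (j : ℕ) : ∀ {E F : Type u} [NormedAddCommGroup E] [NormedSpace ℝ E]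
    [NormedAddCommGroup F] [NormedSpace ℝ F] [CompleteSpace F] {U : Set E} {g : ℕ → E → F}
    {G : E → F} {u : ℕ → ℝ}, IsOpen U → (∀ n, ContDiffOn ℝ j (g n) U) → Summable u →
    (∀ i ≤ j, ∀ n, ∀ y ∈ U, ‖iteratedFDeriv ℝ i (g (n + 1)) y - iteratedFDeriv ℝ i (g n) y‖ ≤ u n) →
    (∀ y ∈ U, Tendsto (fun n => g n y) atTop (𝓝 (G y))) →
    ContDiffOn ℝ j G U ∧ ∀ i ≤ j, ∀ y ∈ U,
      Tendsto (fun n => iteratedFDeriv ℝ i (g n) y) atTop (𝓝 (iteratedFDeriv ℝ i G y)) := by
  have h0 : ∀ {E F : Type u} [NormedAddCommGroup E] [NormedSpace ℝ E]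
      [NormedAddCommGroup F] [NormedSpace ℝ F] (f g : E → F) (y : E),
      ‖iteratedFDeriv ℝ 0 f y - iteratedFDeriv ℝ 0 g y‖ = ‖f y - g y‖ := by
    intro E F _ _ _ _ f g y
    rw [iteratedFDeriv_zero_eq_comp, iteratedFDeriv_zero_eq_comp, Function.comp, Function.comp,
      ← map_sub, LinearIsometryEquiv.norm_map]
  have hz : ∀ {E F : Type u} [NormedAddCommGroup E] [NormedSpace ℝ E]
      [NormedAddCommGroup F] [NormedSpace ℝ F] (g : ℕ → E → F) (G : E → F) (y : E),
      Tendsto (fun n => g n y) atTop (𝓝 (G y)) →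
      Tendsto (fun n => iteratedFDeriv ℝ 0 (g n) y) atTop (𝓝 (iteratedFDeriv ℝ 0 G y)) := by
    intro E F _ _ _ _ g G y h
    rw [tendsto_iff_norm_sub_tendsto_zero] at h ⊢
    simpa only [h0] using h
  induction j with
  | zero =>
    intro E F _ _ _ _ _ U g G u hU hg hu hb hl
    have h1 := unif_of_summable hu (fun n y hy => by rw [← h0]; exact hb 0 le_rfl n y hy) hl
    refine ⟨contDiffOn_zero.2 (h1.continuousOn (Frequently.of_forall fun n => (hg n).continuousOn)),
      fun i hi y hy => ?_⟩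
    obtain rfl : i = 0 := by omega
    exact hz g G y (hl y hy)
  | succ j ih =>
    intro E F _ _ _ _ _ U g G u hU hg hu hb hl
    have hs : ∀ (i : ℕ) (f g : E → F) (y : E),
        ‖iteratedFDeriv ℝ (i + 1) f y - iteratedFDeriv ℝ (i + 1) g y‖ =
          ‖iteratedFDeriv ℝ i (fderiv ℝ f) y - iteratedFDeriv ℝ i (fderiv ℝ g) y‖ := by
      intro i f g y
      rw [iteratedFDeriv_succ_eq_comp_right, iteratedFDeriv_succ_eq_comp_right, ← dist_eq_norm,
        ← dist_eq_norm]
      exact (continuousMultilinearCurryRightEquiv' ℝ i E F).symm.dist_map _ _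
    have hb1 : ∀ n, ∀ y ∈ U, ‖fderiv ℝ (g (n + 1)) y - fderiv ℝ (g n) y‖ ≤ u n := fun n y hy => by
      rw [← h0, ← hs]; exact hb 1 (by omega) n y hy
    have hc : ∀ y ∈ U, ∃ A, Tendsto (fun n => fderiv ℝ (g n) y) atTop (𝓝 A) := fun y hy =>
      cauchySeq_tendsto_of_complete (cauchySeq_of_dist_le_of_summable u
        (fun n => by rw [dist_comm, dist_eq_norm]; exact hb1 n y hy) hu)
    choose! G' hG' using hc
    have hg' : ∀ n, ContDiffOn ℝ j (fderiv ℝ (g n)) U := fun n =>
      (hg n).fderiv_of_isOpen hU (by push_cast; exact le_rfl)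
    obtain ⟨h1, h2⟩ := ih hU hg' hu
      (fun i hi n y hy => by rw [← hs]; exact hb (i + 1) (by omega) n y hy) hG'
    have hdn : ∀ n, ∀ y ∈ U, HasFDerivAt (g n) (fderiv ℝ (g n) y) y := fun n y hy =>
      (((hg n).contDiffAt (hU.mem_nhds hy)).differentiableAt
        (by exact_mod_cast Nat.succ_ne_zero j)).hasFDerivAt
    have hun : TendstoUniformlyOn (fun n => fderiv ℝ (g n)) G' atTop U :=
      unif_of_summable (g := fun n => fderiv ℝ (g n)) hu hb1 hG'
    have hd : ∀ y ∈ U, HasFDerivAt G (G' y) y := fun y hy =>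
      hasFDerivAt_of_tendstoUniformlyOn (f := g) (f' := fun n => fderiv ℝ (g n)) (g := G)
        (g' := G') (l := atTop) hU hun hdn hl hy
    have he : EqOn (fderiv ℝ G) G' U := fun y hy => (hd y hy).fderiv
    refine ⟨?_, fun i hi y hy => ?_⟩
    · rw [Nat.cast_succ, contDiffOn_succ_iff_fderiv_of_isOpen hU]
      exact ⟨fun y hy => (hd y hy).differentiableAt.differentiableWithinAt, by simp, h1.congr he⟩
    · rcases i with _ | i
      · exact hz g G y (hl y hy)
      · have h3 := h2 i (by omega) y hy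
        have h4 : iteratedFDeriv ℝ i G' y = iteratedFDeriv ℝ i (fderiv ℝ G) y :=
          ((he.eventuallyEq_of_mem (hU.mem_nhds hy)).iteratedFDeriv ℝ i).eq_of_nhds.symm
        rw [h4, tendsto_iff_norm_sub_tendsto_zero] at h3
        rw [tendsto_iff_norm_sub_tendsto_zero]
        simpa only [hs] using h3

/-- errors `exp (-α n)` against `K`-th derivatives `exp (β n)` give `j` derivatives -/
theorem contDiffOn_of_approx {E F : Type u} [NormedAddCommGroup E] [NormedSpace ℝ E]
    [NormedAddCommGroup F] [NormedSpace ℝ F] [CompleteSpace F] {U V : Set E} {g : ℕ → E → F}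
    {G : E → F} {j K : ℕ} {α β c C δ : ℝ} (hU : IsOpen U) (hδ : 0 < δ) (hc : 0 ≤ c)
    (hV : ∀ y ∈ U, ∀ n : ℕ, closedBall y (δ * Real.exp (-c * n)) ⊆ V) (hjK : j ≤ K)
    (hα : c * j < α) (hβ : β < c * (K - j)) (hg : ∀ n, ∀ y ∈ V, ContDiffAt ℝ K (g n) y)
    (hA : ∀ n : ℕ, ∀ y ∈ V, ‖g n y - G y‖ ≤ C * Real.exp (-α * n))
    (hB : ∀ n : ℕ, ∀ y ∈ V, ‖iteratedFDeriv ℝ K (g n) y‖ ≤ C * Real.exp (β * n)) :
    ContDiffOn ℝ j G U ∧ ∀ i ≤ j, ∀ y ∈ U,
      Tendsto (fun n => iteratedFDeriv ℝ i (g n) y) atTop (𝓝 (iteratedFDeriv ℝ i G y)) := by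
  obtain ⟨D, hD1, hD⟩ := lk_ball.{u} K
  have hUV : U ⊆ V := fun y hy => hV y hy 0 (mem_closedBall_self (by positivity))
  have hα0 : 0 < α := lt_of_le_of_lt (by positivity) hα
  rcases U.eq_empty_or_nonempty with rfl | ⟨y0, hy0⟩
  · exact ⟨contDiffOn_empty, fun _ _ _ h => h.elim⟩
  have hC : 0 ≤ C := by
    have := (norm_nonneg _).trans (hA 0 y0 (hUV hy0))
    simpa using this
  set m := max 1 δ⁻¹ ^ j with hm
  set θ := min (α - c * j) (c * (K - j) - β) with hθ
  have hθ0 : 0 < θ := lt_min (by linarith) (by linarith)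
  refine contDiffOn_of_summable j
    (u := fun n => D * m * (2 * C + C * (1 + Real.exp β) * δ ^ K) * Real.exp (-θ) ^ n) hU
    (fun n y hy => ((hg n y (hUV hy)).of_le (by exact_mod_cast hjK)).contDiffWithinAt)
    ((summable_geometric_of_lt_one (Real.exp_pos _).le
      (Real.exp_lt_one_iff.2 (by linarith))).mul_left _) (fun i hi n y hy => ?_) fun y hy => ?_
  · set r := δ * Real.exp (-c * n) with hr
    have hr0 : 0 < r := by positivity
    have hn0 : (0 : ℝ) ≤ n := n.cast_nonneg
    have h1 := hD (fun z => g (n + 1) z - g n z) y r (2 * C * Real.exp (-α * n))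
      (C * (1 + Real.exp β) * Real.exp (β * n)) hr0
      (fun z hz => (hg _ z (hV y hy n hz)).sub (hg _ z (hV y hy n hz)))
      (fun z hz => by
        have h2 := hA (n + 1) z (hV y hy n hz)
        have h3 := hA n z (hV y hy n hz)
        have h4 : Real.exp (-α * (n + 1 : ℕ)) ≤ Real.exp (-α * n) :=
          Real.exp_le_exp.2 (by push_cast; nlinarith)
        have h5 := norm_sub_le_norm_sub_add_norm_sub (g (n + 1) z) (G z) (g n z)
        rw [norm_sub_rev (G z)] at h5
        nlinarith)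
      (fun z hz => by
        rw [fun_iteratedFDeriv_sub_apply (hg _ z (hV y hy n hz)) (hg _ z (hV y hy n hz))]
        have h2 := hB (n + 1) z (hV y hy n hz)
        have h3 := hB n z (hV y hy n hz)
        have h4 : Real.exp (β * (n + 1 : ℕ)) = Real.exp β * Real.exp (β * n) := by
          rw [← Real.exp_add]; congr 1; push_cast; ring
        rw [h4] at h2
        refine (norm_sub_le _ _).trans ?_
        linarith) i (hi.trans hjK)
    rw [fun_iteratedFDeriv_sub_apply ((hg _ y (hUV hy)).of_le (by exact_mod_cast hi.trans hjK))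
      ((hg _ y (hUV hy)).of_le (by exact_mod_cast hi.trans hjK)), ← le_div_iff₀ (by positivity)]
      at h1
    refine h1.trans ?_
    have hi' : (i : ℝ) ≤ j := by exact_mod_cast hi
    have hcn : 0 ≤ c * n := by positivity
    have hm1 : (δ ^ i)⁻¹ ≤ m := by
      rw [← inv_pow]
      exact (pow_le_pow_left₀ (by positivity) (le_max_right 1 _) i).trans
        (pow_le_pow_right₀ (le_max_left _ _) hi)
    have e1 : Real.exp (-α * n) * Real.exp (c * n * i) ≤ Real.exp (-θ) ^ n := by
      rw [← Real.exp_add, ← Real.exp_nat_mul]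
      refine Real.exp_le_exp.2 ?_
      have := mul_le_mul_of_nonneg_left (min_le_left (α - c * j) (c * (K - j) - β)) hn0
      nlinarith [mul_le_mul_of_nonneg_left hi' hcn]
    have e2 : Real.exp (β * n) * Real.exp (-c * n) ^ K * Real.exp (c * n * i) ≤
        Real.exp (-θ) ^ n := by
      rw [← Real.exp_nat_mul, ← Real.exp_add, ← Real.exp_add, ← Real.exp_nat_mul]
      refine Real.exp_le_exp.2 ?_
      have := mul_le_mul_of_nonneg_left (min_le_right (α - c * j) (c * (K - j) - β)) hn0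
      nlinarith [mul_le_mul_of_nonneg_left hi' hcn]
    have e3 : (r ^ i)⁻¹ = (δ ^ i)⁻¹ * Real.exp (c * n * i) := by
      rw [hr, mul_pow, mul_inv, ← Real.exp_nat_mul, ← Real.exp_neg]
      congr 2; ring
    rw [div_eq_mul_inv, e3, hr, mul_pow]
    have e4 : D * (2 * C * Real.exp (-α * n) + C * (1 + Real.exp β) * Real.exp (β * n) *
        (δ ^ K * Real.exp (-c * n) ^ K)) * ((δ ^ i)⁻¹ * Real.exp (c * n * i)) =
        D * (δ ^ i)⁻¹ * (2 * C * (Real.exp (-α * n) * Real.exp (c * n * i)) +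
          C * (1 + Real.exp β) * δ ^ K *
            (Real.exp (β * n) * Real.exp (-c * n) ^ K * Real.exp (c * n * i))) := by ring
    rw [e4, mul_assoc (D * m), add_mul]
    have hD0 : 0 ≤ D := by linarith
    gcongr
  · rw [tendsto_iff_norm_sub_tendsto_zero]
    refine squeeze_zero (fun _ => norm_nonneg _) (fun n => hA n y (hUV hy)) ?_
    have h1 : Tendsto (fun n : ℕ => C * Real.exp (-α) ^ n) atTop (𝓝 (C * 0)) :=
      (tendsto_pow_atTop_nhds_zero_of_lt_one (Real.exp_pos _).le
        (Real.exp_lt_one_iff.2 (by linarith))).const_mul C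
    rw [mul_zero] at h1
    refine h1.congr fun n => ?_
    rw [← Real.exp_nat_mul, mul_comm (n : ℝ)]

end Vale.Agent.P207Z.An
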