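import Vale.Agent.P207Z.An.LK

/-!
# Measure of sublevel sets
-/

open Set Metric Filter Topology MeasureTheory
open scoped ContDiff Nat ENNReal

noncomputable section

namespace Vale.Agent.P207Z.An

theorem Chain.neg {F : Type*} [NormedAddCommGroup F] [NormedSpace ℝ F] {f : ℕ → ℝ → F} {K : ℕ}
    {s : Set ℝ} (h : Chain f K s) : Chain (fun j x => -f j x) K s :=
  fun j hj x hx => (h j hj x hx).neg

theorem slope_ge {g g' : ℝ → ℝ} {I : Set ℝ} {c : ℝ} (hI : I.OrdConnected)
    (hg : ∀ x ∈ I, HasDerivWithinAt g (g' x) I x) (hc : ∀ x ∈ I, c ≤ g' x) {x y : ℝ} (hx : x ∈ I)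
    (hy : y ∈ I) (hxy : x ≤ y) : c * (y - x) ≤ g y - g x := by
  refine hI.convex.mul_sub_le_image_sub_of_le_deriv
    (fun z hz => (hg z hz).continuousWithinAt) (fun z hz => ?_) (fun z hz => ?_) x hx y hy hxy
  · exact ((hg z (interior_subset hz)).mono interior_subset).differentiableWithinAt
  · rw [((hg z (interior_subset hz)).hasDerivAt (mem_interior_iff_mem_nhds.1 hz)).deriv]
    exact hc z (interior_subset hz)

/-- a derivative of order `k` bounded below forces small sublevel sets -/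
theorem sublevel_pos (k : ℕ) : ∀ {f : ℕ → ℝ → ℝ} {I : Set ℝ} {c s ρ : ℝ}, I.OrdConnected →
    Chain f k I → 0 < c → 0 < s → (∀ x ∈ I, c ≤ f k x) → ρ < c * s ^ k →
    volume {x ∈ I | |f 0 x| ≤ ρ} ≤ ENNReal.ofReal ((2 ^ (k + 1) - 2) * s) := by
  induction k with
  | zero =>
    intro f I c s ρ _ _ _ _ hc hρ
    have : {x ∈ I | |f 0 x| ≤ ρ} = ∅ := eq_empty_of_forall_notMem fun x hx => by
      have h1 := hc x hx.1
      have h2 := (le_abs_self _).trans hx.2
      rw [pow_zero, mul_one] at hρ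
      linarith
    rw [this, measure_empty]; exact zero_le
  | succ k ih =>
    intro f I c s ρ hI hf hc0 hs hc hρ
    have hsl : ∀ x ∈ I, ∀ y ∈ I, x ≤ y → c * (y - x) ≤ f k y - f k x := fun x hx y hy hxy =>
      slope_ge hI (hf k (by omega)) hc hx hy hxy
    have hδ : 0 < c * s := mul_pos hc0 hs
    have hρ' : ρ < c * s * s ^ k := by rw [mul_assoc, ← pow_succ']; exact hρ
    have hp : {x ∈ I | c * s ≤ f k x}.OrdConnected := ⟨fun x hx y hy z hz => by
      have hzI := hI.out hx.1 hy.1 hz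
      refine ⟨hzI, ?_⟩
      have := hsl x hx.1 z hzI hz.1
      nlinarith [hx.2, hz.1]⟩
    have hm : {x ∈ I | c * s ≤ -f k x}.OrdConnected := ⟨fun x hx y hy z hz => by
      have hzI := hI.out hx.1 hy.1 hz
      refine ⟨hzI, ?_⟩
      have := hsl z hzI y hy.1 hz.2
      nlinarith [hy.2, hz.2]⟩
    have h1 := ih hp ((hf.of_le (Nat.le_succ k)).mono (sep_subset _ _)) hδ hs
      (fun x hx => hx.2) hρ'
    have h2 := ih (f := fun j x => -f j x) hm
      ((hf.of_le (Nat.le_succ k)).mono (sep_subset _ _)).neg hδ hs (fun x hx => hx.2) hρ'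
    have h3 : volume {x ∈ I | |f k x| < c * s} ≤ ENNReal.ofReal (2 * s) := by
      refine (Real.volume_le_diam _).trans (ediam_le_of_forall_dist_le fun x hx y hy => ?_)
      have hx2 := abs_lt.1 hx.2
      have hy2 := abs_lt.1 hy.2
      rw [Real.dist_eq, abs_le]
      rcases le_total x y with h | h
      · have := hsl x hx.1 y hy.1 h
        constructor <;> nlinarith
      · have := hsl y hy.1 x hx.1 h
        constructor <;> nlinarith
    have hsub : {x ∈ I | |f 0 x| ≤ ρ} ⊆ {x ∈ I | |f k x| < c * s} ∪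
        ({x ∈ {x ∈ I | c * s ≤ f k x} | |f 0 x| ≤ ρ} ∪
          {x ∈ {x ∈ I | c * s ≤ -f k x} | |-f 0 x| ≤ ρ}) := fun x hx => by
      by_cases h : |f k x| < c * s
      · exact Or.inl ⟨hx.1, h⟩
      · rcases le_abs'.1 (not_lt.1 h) with h | h
        · exact Or.inr (Or.inr ⟨⟨hx.1, by linarith⟩, by rw [abs_neg]; exact hx.2⟩)
        · exact Or.inr (Or.inl ⟨⟨hx.1, h⟩, hx.2⟩)
    have h2k : (2 : ℝ) ≤ 2 ^ (k + 1) := le_self_pow₀ one_le_two (by omega)
    have hn : 0 ≤ ((2 : ℝ) ^ (k + 1) - 2) * s := mul_nonneg (by linarith) hs.le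
    refine (measure_mono hsub).trans ((measure_union_le _ _).trans ((add_le_add h3
      ((measure_union_le _ _).trans (add_le_add h1 h2))).trans (le_of_eq ?_)))
    rw [← ENNReal.ofReal_add hn hn, ← ENNReal.ofReal_add (by linarith) (by linarith)]
    congr 1
    ring

theorem sublevel_abs (k : ℕ) {f : ℕ → ℝ → ℝ} {I : Set ℝ} {c s ρ : ℝ} (hI : I.OrdConnected)
    (hf : Chain f k I) (hk : ContinuousOn (f k) I) (hc0 : 0 < c) (hs : 0 < s)
    (hc : ∀ x ∈ I, c ≤ |f k x|) (hρ : ρ < c * s ^ k) :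
    volume {x ∈ I | |f 0 x| ≤ ρ} ≤ ENNReal.ofReal (2 ^ (k + 1) * s) := by
  have hle : ENNReal.ofReal ((2 ^ (k + 1) - 2) * s) ≤ ENNReal.ofReal (2 ^ (k + 1) * s) :=
    ENNReal.ofReal_le_ofReal (by nlinarith)
  by_cases hp : ∀ x ∈ I, c ≤ f k x
  · exact (sublevel_pos k hI hf hc0 hs hp hρ).trans hle
  · push Not at hp
    obtain ⟨x, hx, hxc⟩ := hp
    have hx' : f k x ≤ -c := (le_abs'.1 (hc x hx)).resolve_right (not_le.2 hxc)
    have hm : ∀ y ∈ I, c ≤ -f k y := fun y hy => by
      rcases le_abs'.1 (hc y hy) with h | h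
      · linarith
      · obtain ⟨z, hz, hz0⟩ := hI.isPreconnected.intermediate_value hx hy hk
          (show (0 : ℝ) ∈ Icc (f k x) (f k y) from ⟨by linarith, by linarith⟩)
        have := hc z hz
        rw [hz0, abs_zero] at this
        linarith
    have := sublevel_pos k (f := fun j x => -f j x) hI hf.neg hc0 hs hm hρ
    simp only [abs_neg] at this
    exact this.trans hle

variable {E : Type*} [NormedAddCommGroup E] [NormedSpace ℝ E] [FiniteDimensional ℝ E]
  [MeasurableSpace E] [BorelSpace E] (μ : Measure E) [μ.IsAddHaarMeasure]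

/-- a set with small slices in one direction is small -/
theorem measure_le_of_slices {S : Set E} (hS : MeasurableSet S) {x v : E} {r : ℝ}
    (hSr : S ⊆ ball x r) (hv : ‖v‖ ≤ 1) {ε : ℝ≥0∞}
    (h : ∀ y, volume {t : ℝ | y + t • v ∈ S} ≤ ε) :
    ENNReal.ofReal (2 * r) * μ S ≤ ε * μ (ball x (2 * r)) := by
  set T : Set (E × ℝ) := {p | p.1 ∈ ball x (2 * r) ∧ p.2 ∈ Icc (-r) r ∧ p.1 + p.2 • v ∈ S}
    with hT
  have hTm : MeasurableSet T :=
    (measurable_fst measurableSet_ball).inter ((measurable_snd measurableSet_Icc).inter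
      ((by fun_prop : Measurable fun p : E × ℝ => p.1 + p.2 • v) hS))
  have h1 : (μ.prod volume) T ≤ ε * μ (ball x (2 * r)) := by
    rw [Measure.prod_apply hTm, ← setLIntegral_const, ← lintegral_indicator measurableSet_ball]
    refine lintegral_mono fun y => ?_
    by_cases hy : y ∈ ball x (2 * r)
    · rw [indicator_of_mem hy]
      exact (measure_mono fun t ht => ht.2.2).trans (h y)
    · have : Prod.mk y ⁻¹' T = ∅ := eq_empty_of_forall_notMem fun t ht => hy ht.1
      rw [this, measure_empty]; exact zero_le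
  refine le_trans ?_ h1
  have h2 : ENNReal.ofReal (2 * r) = volume (Icc (-r) r) := by
    rw [Real.volume_Icc]; congr 1; ring
  rw [Measure.prod_apply_symm hTm, h2, mul_comm, ← setLIntegral_const,
    ← lintegral_indicator measurableSet_Icc]
  refine lintegral_mono fun t => ?_
  by_cases ht : t ∈ Icc (-r) r
  · rw [indicator_of_mem ht, ← measure_preimage_add_right μ (t • v) S]
    refine measure_mono fun y hy => ⟨?_, ht, hy⟩
    have h3 := mem_ball.1 (hSr hy)
    have h4 : dist y (y + t • v) ≤ r := by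
      rw [dist_self_add_right, norm_smul, Real.norm_eq_abs]
      exact (mul_le_of_le_one_right (abs_nonneg _) hv).trans (abs_le.2 ht)
    rw [mem_ball]
    linarith [dist_triangle y (y + t • v) x]
  · rw [indicator_of_notMem ht]; exact zero_le

/-- a directional derivative bounded below on a ball forces small sublevel sets -/
theorem sublevel_ball (k : ℕ) {f : E → ℝ} {x v : E} {r c s ρ : ℝ} (hv : ‖v‖ ≤ 1)
    (hf : ∀ y ∈ ball x r, ContDiffAt ℝ k f y) (hc0 : 0 < c) (hs : 0 < s)
    (hc : ∀ y ∈ ball x r, c ≤ |iteratedFDeriv ℝ k f y fun _ => v|) (hρ : ρ < c * s ^ k) :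
    ENNReal.ofReal (2 * r) * μ {y ∈ ball x r | |f y| ≤ ρ} ≤
      ENNReal.ofReal (2 ^ (k + 1) * s) * μ (ball x (2 * r)) := by
  have hcont : ContinuousOn f (ball x r) := fun y hy =>
    (hf y hy).continuousAt.continuousWithinAt
  have hm : MeasurableSet {y ∈ ball x r | |f y| ≤ ρ} := by
    have h1 : IsOpen {y ∈ ball x r | ρ < |f y|} :=
      hcont.abs.isOpen_inter_preimage isOpen_ball isOpen_Ioi
    have h2 : {y ∈ ball x r | |f y| ≤ ρ} = ball x r \ {y ∈ ball x r | ρ < |f y|} := by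
      ext y
      exact ⟨fun h => ⟨h.1, fun h' => absurd h.2 (not_le.2 h'.2)⟩,
        fun h => ⟨h.1, not_lt.1 fun h' => h.2 ⟨h.1, h'⟩⟩⟩
    rw [h2]
    exact measurableSet_ball.diff h1.measurableSet
  refine measure_le_of_slices μ hm (sep_subset _ _) hv fun y => ?_
  have hI : {t : ℝ | y + t • v ∈ ball x r}.OrdConnected := by
    refine Convex.ordConnected fun a ha b hb p q hp hq hpq => ?_
    have h1 := convex_ball x r ha hb hp hq hpq
    have h2 : p • (y + a • v) + q • (y + b • v) = y + (p • a + q • b) • v := by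
      rw [smul_add, smul_add, add_add_add_comm, ← add_smul, hpq, one_smul, add_smul, smul_assoc,
        smul_assoc]
    rw [h2] at h1
    exact h1
  have hk : ContinuousOn (fun t : ℝ => iteratedFDeriv ℝ k f (y + t • v) fun _ => v)
      {t : ℝ | y + t • v ∈ ball x r} := fun t ht => by
    have h1 : ContinuousAt (iteratedFDeriv ℝ k f) (y + t • v) :=
      ((hf _ ht).iteratedFDeriv_right (m := 0) (i := k) (by simp)).continuousAt
    have h2 : ContinuousAt (fun t : ℝ => y + t • v) t := by fun_prop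
    have h3 : ContinuousAt (fun t : ℝ => iteratedFDeriv ℝ k f (y + t • v)) t :=
      ContinuousAt.comp (f := fun t : ℝ => y + t • v) h1 h2
    exact ((continuous_eval_const fun _ => v).continuousAt.comp h3).continuousWithinAt
  have := sublevel_abs k hI (chain_line fun t ht => hf _ ht) hk hc0 hs (fun t ht => hc _ ht) hρ
  simpa using this

/-- some directional derivative of order at most `J` is large at each point of a compact set -/
theorem sublevel_cpt {K : Set E} (hK : IsCompact K) (J : ℕ) {δ M c : ℝ} (hδ : 0 < δ) (hM : 0 < M)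
    (hc : 0 < c) : ∃ C : ℝ, 0 < C ∧ ∀ (f : E → ℝ) (N s ρ : ℝ), 0 < N → 0 < s → s ≤ 1 →
    (∀ y ∈ thickening δ K, ContDiffAt ℝ (J + 1 : ℕ) f y) →
    (∀ j ≤ J + 1, ∀ y ∈ thickening δ K, ‖iteratedFDeriv ℝ j f y‖ ≤ M * N) →
    (∀ y ∈ K, ∃ k ≤ J, ∃ v : E, ‖v‖ ≤ 1 ∧ c * N ≤ |iteratedFDeriv ℝ k f y fun _ => v|) →
    ρ < c / 2 * N * s ^ J → μ {y ∈ K | |f y| ≤ ρ} ≤ ENNReal.ofReal (C * s) := by
  set r := min δ (c / (2 * M)) with hr
  have hr0 : 0 < r := lt_min hδ (by positivity)
  obtain ⟨T, hTK, hTf, hcov⟩ := finite_cover_balls_of_compact hK hr0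
  set w := μ.real (ball (0 : E) (2 * r)) with hw
  have hw0 : 0 ≤ w := measureReal_nonneg
  refine ⟨hTf.toFinset.card * (2 ^ (J + 1) * w / (2 * r)) + 1, by positivity,
    fun f N s ρ hN hs hs1 hf hb hk hρ => ?_⟩
  have hball : ∀ x ∈ T, μ {y ∈ ball x r | |f y| ≤ ρ} ≤
      ENNReal.ofReal (2 ^ (J + 1) * w / (2 * r) * s) := fun x hx => by
    have hsub : ball x r ⊆ thickening δ K := fun y hy =>
      mem_thickening_iff.2 ⟨x, hTK hx, (mem_ball.1 hy).trans_le (min_le_left _ _)⟩
    obtain ⟨k, hkJ, v, hv, hkv⟩ := hk x (hTK hx)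
    have hlow : ∀ y ∈ ball x r, c / 2 * N ≤ |iteratedFDeriv ℝ k f y fun _ => v| := fun y hy => by
      have h1 : ‖iteratedFDeriv ℝ k f y - iteratedFDeriv ℝ k f x‖ ≤ M * N * ‖y - x‖ :=
        (convex_ball x r).norm_image_sub_le_of_norm_fderiv_le (𝕜 := ℝ)
          (fun z hz => (hf z (hsub hz)).differentiableAt_iteratedFDeriv
            (by exact_mod_cast Nat.lt_succ_of_le hkJ))
          (fun z hz => by
            rw [norm_fderiv_iteratedFDeriv]; exact hb _ (by omega) z (hsub hz))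
          (mem_ball_self hr0) hy
      have h2 : ‖y - x‖ ≤ c / (2 * M) := by
        rw [← dist_eq_norm]; exact (mem_ball.1 hy).le.trans (min_le_right _ _)
      have h3 := (iteratedFDeriv ℝ k f y - iteratedFDeriv ℝ k f x).le_opNorm fun _ => v
      have h4 : ∏ _i : Fin k, ‖v‖ ≤ 1 :=
        Finset.prod_le_one (fun _ _ => norm_nonneg _) fun _ _ => hv
      have h5 : M * N * ‖y - x‖ ≤ c / 2 * N := by
        refine (mul_le_mul_of_nonneg_left h2 (by positivity)).trans (le_of_eq ?_)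
        field_simp
      have h6 := h3.trans ((mul_le_of_le_one_right (norm_nonneg _) h4).trans (h1.trans h5))
      rw [sub_apply, Real.norm_eq_abs] at h6
      have h7 := abs_sub_abs_le_abs_sub (iteratedFDeriv ℝ k f x fun _ => v)
        (iteratedFDeriv ℝ k f y fun _ => v)
      rw [abs_sub_comm] at h7
      linarith
    have hρ' : ρ < c / 2 * N * s ^ k :=
      hρ.trans_le (mul_le_mul_of_nonneg_left (pow_le_pow_of_le_one hs.le hs1 hkJ) (by positivity))
    have h1 := sublevel_ball μ k hv (fun y hy => (hf y (hsub hy)).of_le (by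
      exact_mod_cast Nat.le_succ_of_le hkJ)) (by positivity) hs hlow hρ'
    have h2 : μ (ball x (2 * r)) = ENNReal.ofReal w := by
      rw [hw, ofReal_measureReal measure_ball_lt_top.ne, Measure.addHaar_ball_center]
    have h3 : ENNReal.ofReal (2 ^ (k + 1) * s) * μ (ball x (2 * r)) ≤
        ENNReal.ofReal (2 * r) * ENNReal.ofReal (2 ^ (J + 1) * w / (2 * r) * s) := by
      rw [h2, ← ENNReal.ofReal_mul (by positivity), ← ENNReal.ofReal_mul (by positivity)]
      refine ENNReal.ofReal_le_ofReal ?_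
      have h4 : (2 : ℝ) ^ (k + 1) ≤ 2 ^ (J + 1) := pow_le_pow_right₀ one_le_two (by omega)
      have h5 : 2 * r * (2 ^ (J + 1) * w / (2 * r) * s) = 2 ^ (J + 1) * (s * w) := by field_simp
      rw [h5, mul_assoc]
      exact mul_le_mul_of_nonneg_right h4 (by positivity)
    exact (ENNReal.mul_le_mul_iff_right (by simpa using hr0) ENNReal.ofReal_ne_top).1 (h1.trans h3)
  have hsub : {y ∈ K | |f y| ≤ ρ} ⊆ ⋃ x ∈ hTf.toFinset, {y ∈ ball x r | |f y| ≤ ρ} :=
    fun y hy => by
      obtain ⟨x, hx, hxy⟩ := mem_iUnion₂.1 (hcov hy.1)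
      exact mem_iUnion₂.2 ⟨x, hTf.mem_toFinset.2 hx, hxy, hy.2⟩
  refine (measure_mono hsub).trans ((measure_biUnion_finset_le _ _).trans
    ((Finset.sum_le_card_nsmul _ _ _ fun x hx => hball x (hTf.mem_toFinset.1 hx)).trans ?_))
  rw [nsmul_eq_mul, ← ENNReal.ofReal_natCast, ← ENNReal.ofReal_mul (by positivity)]
  refine ENNReal.ofReal_le_ofReal ?_
  rw [add_mul, ← mul_assoc]
  linarith

end Vale.Agent.P207Z.An
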