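import Mathlib

/-!
# Jets of curves under contractions
-/

open Set Metric Filter Topology
open scoped ContDiff Nat

noncomputable section

namespace Vale.Agent.P207Z.An

/-! ### ordered partitions -/

section Part

variable {n : ℕ}

theorem ofp_sum (c : OrderedFinpartition n) : ∑ m, c.partSize m = n := by
  have h := Fintype.card_congr c.equivSigma
  simpa using h

theorem ofp_one_uniq (c c' : OrderedFinpartition n) (h : c.length = 1) (h' : c'.length = 1) :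
    c = c' := by
  have h1 := ofp_sum c
  have h1' := ofp_sum c'
  rcases c with ⟨l, ps, hp, emb, hmono, h3, h4, h5⟩
  rcases c' with ⟨l', ps', hp', emb', hmono', h3', h4', h5'⟩
  dsimp only at h h' h1 h1'
  subst h h'
  simp only [Finset.univ_unique, Finset.sum_singleton] at h1 h1'
  obtain rfl : ps = fun _ => n := funext fun m => by rw [Subsingleton.elim m default]; exact h1
  obtain rfl : ps' = fun _ => n := funext fun m => by rw [Subsingleton.elim m default]; exact h1'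
  have e1 : emb = fun _ => id := funext fun m => (hmono m).eq_id
  have e2 : emb' = fun _ => id := funext fun m => (hmono' m).eq_id
  subst e1 e2
  rfl

theorem ofp_size_of_one (c : OrderedFinpartition n) (h : c.length = 1) (m : Fin c.length) :
    c.partSize m = n := by
  have h1 := ofp_sum c
  have : Subsingleton (Fin c.length) := by rw [h]; infer_instance
  rwa [Finset.sum_eq_single m (fun b _ hb => (hb (Subsingleton.elim _ _)).elim)
    (fun hm => (hm (Finset.mem_univ _)).elim)] at h1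

theorem ofp_size_lt (c : OrderedFinpartition n) (h : c.length ≠ 1) (m : Fin c.length) :
    c.partSize m < n := by
  have h1 := ofp_sum c
  have hl : 1 < c.length := lt_of_le_of_ne (Nat.zero_lt_of_lt m.2) (Ne.symm h)
  have : Nontrivial (Fin c.length) := Fin.nontrivial_iff_two_le.2 hl
  obtain ⟨m', hm'⟩ := exists_ne m
  exact lt_of_lt_of_eq (Finset.single_lt_sum hm' (Finset.mem_univ _) (Finset.mem_univ _)
    (c.partSize_pos m') fun _ _ _ => Nat.zero_le _) h1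

theorem ofp_big (c : OrderedFinpartition n) (hn : 0 < n) {i0 P : ℕ} (hP : c.length < P)
    (hi : i0 * P ≤ n) : ∃ m, i0 ≤ c.partSize m := by
  by_contra hc
  push Not at hc
  have h1 := ofp_sum c
  have h2 : ∑ m, c.partSize m ≤ ∑ _m : Fin c.length, i0 :=
    Finset.sum_le_sum fun m _ => (hc m).le
  have h3 : 0 < i0 := Nat.zero_lt_of_lt (hc ⟨0, c.length_pos hn⟩)
  simp only [Finset.sum_const, Finset.card_univ, Fintype.card_fin, smul_eq_mul] at h2
  have h4 : c.length * i0 < P * i0 := Nat.mul_lt_mul_of_pos_right hP h3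
  rw [mul_comm P] at h4
  omega

/-- the basic estimate of one term of the formula of Faa di Bruno -/
theorem ofp_prod_le (c : OrderedFinpartition n) (hn : 0 < n) {a : ℕ → ℝ} {M η ε : ℝ} {i0 P d : ℕ}
    (hM : 1 ≤ M) (hη : 0 ≤ η) (hη1 : η ≤ 1) (hε : 0 ≤ ε) (ha : ∀ j, 0 ≤ a j)
    (h1 : ∀ m, a (c.partSize m) ≤ M * η) (h2 : ∀ m, i0 ≤ c.partSize m → a (c.partSize m) ≤ ε)
    (hi : i0 * P ≤ n) (hd : d + 1 ≤ c.length) :
    ∏ m, a (c.partSize m) ≤ M ^ n * (η ^ d * ε + η ^ P) := by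
  have hM0 : 0 ≤ M := zero_le_one.trans hM
  have hl := c.length_le
  rcases le_or_gt P c.length with hP | hP
  · calc ∏ m, a (c.partSize m) ≤ ∏ _m : Fin c.length, M * η :=
          Finset.prod_le_prod (fun m _ => ha _) fun m _ => h1 m
      _ = M ^ c.length * η ^ c.length := by simp [mul_pow]
      _ ≤ M ^ n * η ^ P :=
          mul_le_mul (pow_le_pow_right₀ hM hl) (pow_le_pow_of_le_one hη hη1 hP) (by positivity)
            (by positivity)
      _ ≤ M ^ n * (η ^ d * ε + η ^ P) := by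
          gcongr
          exact le_add_of_nonneg_left (by positivity)
  · obtain ⟨m, hm⟩ := ofp_big c hn hP hi
    calc ∏ m, a (c.partSize m)
        = (∏ m' ∈ Finset.univ.erase m, a (c.partSize m')) * a (c.partSize m) :=
          (Finset.prod_erase_mul _ _ (Finset.mem_univ m)).symm
      _ ≤ (∏ _m' ∈ Finset.univ.erase m, M * η) * ε :=
          mul_le_mul (Finset.prod_le_prod (fun m _ => ha _) fun m _ => h1 m) (h2 m hm) (ha _)
            (Finset.prod_nonneg fun _ _ => by positivity)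
      _ = M ^ (c.length - 1) * η ^ (c.length - 1) * ε := by
          simp [Finset.card_erase_of_mem, mul_pow]
      _ ≤ M ^ n * η ^ d * ε :=
          mul_le_mul_of_nonneg_right (mul_le_mul (pow_le_pow_right₀ hM (by omega))
            (pow_le_pow_of_le_one hη hη1 (by omega)) (by positivity) (by positivity)) hε
      _ ≤ M ^ n * (η ^ d * ε + η ^ P) := by
          rw [mul_assoc]
          gcongr
          exact le_add_of_nonneg_right (by positivity)

end Part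

/-- the sum over the partitions of `i` in at least two parts -/
def hiSum (a : ℕ → ℝ) (i : ℕ) : ℝ :=
  ∑ c : OrderedFinpartition i, if c.length = 1 then 0 else ∏ m, a (c.partSize m)

/-- a bound for the number of partitions of `i ≤ J` -/
def nPart (J : ℕ) : ℝ := ∑ i ∈ Finset.range (J + 1), (Fintype.card (OrderedFinpartition i) : ℝ)

theorem nPart_nonneg (J : ℕ) : 0 ≤ nPart J := Finset.sum_nonneg fun _ _ => Nat.cast_nonneg _

theorem card_le_nPart {i J : ℕ} (h : i ≤ J) :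
    (Fintype.card (OrderedFinpartition i) : ℝ) ≤ nPart J :=
  Finset.single_le_sum (f := fun i => (Fintype.card (OrderedFinpartition i) : ℝ))
    (fun _ _ => Nat.cast_nonneg _) (Finset.mem_range.2 (Nat.lt_succ_of_le h))

theorem hiSum_le {a : ℕ → ℝ} {M η ε : ℝ} {i0 P i J : ℕ} (hi : 1 ≤ i) (hJ : i ≤ J) (hM : 1 ≤ M)
    (hη : 0 ≤ η) (hη1 : η ≤ 1) (hε : 0 ≤ ε) (ha : ∀ j, 0 ≤ a j)
    (h1 : ∀ j, 1 ≤ j → j < i → a j ≤ M * η) (h2 : ∀ j, i0 ≤ j → 1 ≤ j → j < i → a j ≤ ε)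
    (hP : i0 * P ≤ i) : hiSum a i ≤ nPart J * M ^ J * (η * ε + η ^ P) := by
  have hM0 : 0 ≤ M := zero_le_one.trans hM
  have hb : 0 ≤ η * ε + η ^ P := by positivity
  calc hiSum a i ≤ ∑ _c : OrderedFinpartition i, M ^ i * (η * ε + η ^ P) := by
        refine Finset.sum_le_sum fun c _ => ?_
        split_ifs with h
        · positivity
        · have hl : 1 + 1 ≤ c.length := lt_of_le_of_ne (c.length_pos hi) (Ne.symm h)
          have := ofp_prod_le c hi hM hη hη1 hε ha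
            (fun m => h1 _ (c.partSize_pos m) (ofp_size_lt c h m))
            (fun m hm => h2 _ hm (c.partSize_pos m) (ofp_size_lt c h m)) hP hl
          rwa [pow_one] at this
    _ = (Fintype.card (OrderedFinpartition i) : ℝ) * M ^ i * (η * ε + η ^ P) := by
        simp [mul_assoc]
    _ ≤ nPart J * M ^ J * (η * ε + η ^ P) :=
        mul_le_mul_of_nonneg_right (mul_le_mul (card_le_nPart hJ) (pow_le_pow_right₀ hM hJ)
          (by positivity) (nPart_nonneg J)) hb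

/-! ### sequences -/

/-- forward estimate for sequences -/
theorem forward_seq (J : ℕ) (C0 A : ℝ) (hC0 : 0 ≤ C0) : ∃ M : ℝ, 1 ≤ M ∧
    ∀ (T : ℕ) (a : ℕ → ℕ → ℝ), (∀ i t, 0 ≤ a i t) → (∀ i, 1 ≤ i → i ≤ J → a i 0 ≤ A) →
      (∀ t < T, ∀ i, 1 ≤ i → i ≤ J →
        a i (t + 1) ≤ 1 / 2 * a i t + C0 * hiSum (fun j => a j t) i) →
      ∀ t ≤ T, ∀ i, 1 ≤ i → i ≤ J → a i t ≤ M * (3 / 4) ^ t := by
  induction J with
  | zero => exact ⟨1, le_rfl, fun T a _ _ _ t _ i h1 h2 => by omega⟩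
  | succ J ih =>
    obtain ⟨M, hM, h⟩ := ih
    set B : ℝ := C0 * (nPart (J + 1) * M ^ (J + 1)) with hB
    have hB0 : 0 ≤ B := mul_nonneg hC0 (mul_nonneg (nPart_nonneg _) (by positivity))
    refine ⟨max M (max A (4 * B)), hM.trans (le_max_left _ _), fun T a ha hA hr => ?_⟩
    have h' := h T a ha (fun i h1 h2 => hA i h1 (by omega))
      (fun t ht i h1 h2 => hr t ht i h1 (by omega))
    set M' := max M (max A (4 * B)) with hM'
    have e1 : M ≤ M' := le_max_left _ _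
    have e2 : A ≤ M' := (le_max_left _ _).trans (le_max_right _ _)
    have e3 : 4 * B ≤ M' := (le_max_right _ _).trans (le_max_right _ _)
    have top : ∀ t ≤ T, a (J + 1) t ≤ M' * (3 / 4) ^ t := by
      intro t
      induction t with
      | zero => intro _; simpa using (hA (J + 1) (by omega) le_rfl).trans e2
      | succ t iht =>
        intro ht
        have i1 := iht (by omega)
        have hη : (0 : ℝ) ≤ (3 / 4) ^ t := by positivity
        have i2 := hiSum_le (a := fun j => a j t) (M := M) (η := (3 / 4) ^ t) (ε := 0)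
          (i0 := J + 1) (P := 1) (i := J + 1) (J := J + 1) (by omega) le_rfl hM hη
          (pow_le_one₀ (by norm_num) (by norm_num)) le_rfl (fun j => ha j t)
          (fun j h1 h2 => h' t (by omega) j h1 (by omega)) (fun j h1 _ h2 => by omega) (by omega)
        have i3 := hr t (by omega) (J + 1) (by omega) le_rfl
        have i4 : C0 * hiSum (fun j => a j t) (J + 1) ≤ B * (3 / 4) ^ t := by
          have := mul_le_mul_of_nonneg_left i2 hC0
          rw [hB]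
          simpa [mul_assoc] using this
        have i5 : 4 * B * (3 / 4) ^ t ≤ M' * (3 / 4) ^ t := mul_le_mul_of_nonneg_right e3 hη
        rw [pow_succ]
        nlinarith
    intro t ht i h1 h2
    rcases eq_or_lt_of_le h2 with rfl | h3
    · exact top t ht
    · exact (h' t ht i h1 (by omega)).trans (mul_le_mul_of_nonneg_right e1 (by positivity))

/-- the weights of the backward induction -/
def wgt (k0 k T t : ℕ) : ℝ := (3 / 4) ^ ((k0 + k) * t) * (4 / 3) ^ (k0 * T)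

theorem wgt_pos (k0 k T t : ℕ) : 0 < wgt k0 k T t := by
  unfold wgt
  positivity

theorem wgt_succ (k0 k T t : ℕ) : wgt k0 (k + 1) T t = (3 / 4) ^ t * wgt k0 k T t := by
  unfold wgt
  rw [← add_assoc, add_mul, one_mul, pow_add]
  ring

theorem wgt_step (k0 k T t : ℕ) : wgt k0 k T (t + 1) = (3 / 4) ^ (k0 + k) * wgt k0 k T t := by
  unfold wgt
  rw [mul_add, mul_one, pow_add]
  ring

theorem wgt_top (k0 k T : ℕ) : wgt k0 k T T = (3 / 4) ^ (k * T) := by
  unfold wgt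
  rw [add_mul, pow_add, mul_right_comm, ← mul_pow]
  norm_num

theorem one_le_wgt {k0 T t : ℕ} (h : t ≤ T) : 1 ≤ wgt k0 0 T t := by
  unfold wgt
  obtain ⟨d, rfl⟩ := Nat.exists_eq_add_of_le h
  rw [add_zero, mul_add, pow_add, ← mul_assoc, ← mul_pow]
  norm_num
  exact one_le_pow₀ (by norm_num)

theorem pow_le_wgt {k0 k P : ℕ} (h : k0 + k ≤ P) (T t : ℕ) :
    (((3 : ℝ) / 4) ^ t) ^ P ≤ wgt k0 k T t := by
  unfold wgt
  rw [← pow_mul]
  calc ((3 : ℝ) / 4) ^ (t * P) ≤ (3 / 4) ^ ((k0 + k) * t) :=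
        pow_le_pow_of_le_one (by norm_num) (by norm_num) (by
          rw [mul_comm]; exact Nat.mul_le_mul_left _ h)
    _ ≤ _ := le_mul_of_one_le_right (by positivity) (one_le_pow₀ (by norm_num))

/-- the backward induction -/
theorem backward_seq {Lam c : ℝ} {k0 i1 P : ℕ} (hk0 : Lam * (3 / 4) ^ k0 ≤ 1 / 2) (hc0 : 0 ≤ c)
    (hc : c ≤ 1) (hi1 : c ^ i1 ≤ (3 / 4) ^ P) (hP : 1 ≤ P) (J : ℕ) (C0 M A' : ℝ) (hC0 : 0 ≤ C0)
    (hM : 1 ≤ M) (k : ℕ) (hk : k0 + k ≤ P) : ∃ C : ℝ, 0 ≤ C ∧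
    ∀ (T : ℕ) (a : ℕ → ℕ → ℝ), (∀ i t, 0 ≤ a i t) →
      (∀ t ≤ T, ∀ i, 1 ≤ i → i ≤ J → a i t ≤ M * (3 / 4) ^ t) →
      (∀ t < T, ∀ i, 1 ≤ i → i ≤ J →
        a i t ≤ Lam * a i (t + 1) + C0 * hiSum (fun j => a j (t + 1)) i) →
      (∀ i, 1 ≤ i → i ≤ J → a i T ≤ A' * c ^ (i * T)) →
      ∀ t ≤ T, ∀ i, i1 * P ^ k ≤ i → 1 ≤ i → i ≤ J → a i t ≤ C * wgt k0 k T t := by
  have hM0 : 0 ≤ M := zero_le_one.trans hM
  induction k with
  | zero =>
    refine ⟨M, hM0, fun T a _ hf _ _ t ht i _ h1 h2 => (hf t ht i h1 h2).trans ?_⟩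
    exact mul_le_mul_of_nonneg_left
      ((pow_le_one₀ (by norm_num) (by norm_num)).trans (one_le_wgt ht)) hM0
  | succ k ih =>
    obtain ⟨C, hC, h⟩ := ih (by omega)
    set B : ℝ := C0 * (nPart J * M ^ J) * (C + 1) with hB
    have hB0 : 0 ≤ B :=
      mul_nonneg (mul_nonneg hC0 (mul_nonneg (nPart_nonneg _) (by positivity))) (by positivity)
    refine ⟨max |A'| (2 * B), (abs_nonneg _).trans (le_max_left _ _),
      fun T a ha hf hb hT t ht i hi h1 h2 => ?_⟩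
    have h' := h T a ha hf hb hT
    set C' := max |A'| (2 * B) with hC'
    have e1 : |A'| ≤ C' := le_max_left _ _
    have e2 : 2 * B ≤ C' := le_max_right _ _
    have e0 : 0 ≤ C' := (abs_nonneg _).trans e1
    induction ht using Nat.decreasingInduction with
    | self =>
      rw [wgt_top]
      have j1 : i1 ≤ i := (Nat.le_mul_of_pos_right _ (by positivity)).trans hi
      have j2 : c ^ (i * T) ≤ (3 / 4) ^ ((k + 1) * T) := by
        rw [pow_mul, pow_mul]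
        refine pow_le_pow_left₀ (by positivity) ?_ _
        exact ((pow_le_pow_of_le_one hc0 hc j1).trans hi1).trans
          (pow_le_pow_of_le_one (by norm_num) (by norm_num) (by omega))
      exact (hT i h1 h2).trans (mul_le_mul ((le_abs_self _).trans e1) j2 (by positivity) e0)
    | of_succ t ht iht =>
      have hη : (0 : ℝ) ≤ (3 / 4) ^ (t + 1) := by positivity
      have hw := wgt_pos k0 k T (t + 1)
      have i2 := hiSum_le (a := fun j => a j (t + 1)) (M := M) (η := (3 / 4) ^ (t + 1))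
        (ε := C * wgt k0 k T (t + 1)) (i0 := i1 * P ^ k) (P := P) (i := i) (J := J) h1 h2 hM hη
        (pow_le_one₀ (by norm_num) (by norm_num)) (by positivity) (fun j => ha j _)
        (fun j j1 j2 => hf (t + 1) ht j j1 (by omega))
        (fun j j0 j1 j2 => h' (t + 1) ht j j0 j1 (by omega))
        (by rwa [mul_assoc, ← pow_succ])
      have i3 : (3 / 4) ^ (t + 1) * (C * wgt k0 k T (t + 1)) + ((3 / 4) ^ (t + 1)) ^ P ≤
          (C + 1) * wgt k0 (k + 1) T (t + 1) := by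
        have := pow_le_wgt hk T (t + 1)
        rw [add_mul, one_mul, mul_left_comm, ← wgt_succ]
        linarith
      have i4 : C0 * hiSum (fun j => a j (t + 1)) i ≤ B * wgt k0 (k + 1) T (t + 1) := by
        have := mul_le_mul_of_nonneg_left (i2.trans (mul_le_mul_of_nonneg_left i3
          (mul_nonneg (nPart_nonneg _) (by positivity)))) hC0
        rw [hB]
        simpa [mul_assoc] using this
      have hw' := wgt_pos k0 (k + 1) T t
      have i5 : wgt k0 (k + 1) T (t + 1) ≤ (3 / 4) ^ k0 * wgt k0 (k + 1) T t := by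
        rw [wgt_step]
        exact mul_le_mul_of_nonneg_right
          (pow_le_pow_of_le_one (by norm_num) (by norm_num) (by omega)) hw'.le
      have i6 : wgt k0 (k + 1) T (t + 1) ≤ wgt k0 (k + 1) T t :=
        i5.trans (mul_le_of_le_one_left hw'.le (pow_le_one₀ (by norm_num) (by norm_num)))
      have i7 : Lam * a i (t + 1) ≤ 1 / 2 * (C' * wgt k0 (k + 1) T t) := by
        rcases le_total Lam 0 with hL | hL
        · exact (mul_nonpos_of_nonpos_of_nonneg hL (ha _ _)).trans (by positivity)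
        · calc Lam * a i (t + 1) ≤ Lam * (C' * ((3 / 4) ^ k0 * wgt k0 (k + 1) T t)) :=
                mul_le_mul_of_nonneg_left (iht.trans (mul_le_mul_of_nonneg_left i5 e0)) hL
            _ = Lam * (3 / 4) ^ k0 * (C' * wgt k0 (k + 1) T t) := by ring
            _ ≤ _ := mul_le_mul_of_nonneg_right hk0 (by positivity)
      have i8 : B * wgt k0 (k + 1) T (t + 1) ≤ 1 / 2 * (C' * wgt k0 (k + 1) T t) := by
        have j1 := mul_le_mul_of_nonneg_left i6 hB0
        have j2 := mul_le_mul_of_nonneg_right e2 hw'.le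
        linarith
      have i9 := hb t ht i h1 h2
      linarith

theorem exists_pow_le {c ε : ℝ} (hc : c < 1) (hε : 0 < ε) : ∃ k : ℕ, c ^ k ≤ ε := by
  obtain ⟨k, hk⟩ := exists_pow_lt_of_lt_one hε hc
  exact ⟨k, hk.le⟩

/-- the window lemma for sequences -/
theorem window_seq (Lam K c : ℝ) (q : ℕ) (hc0 : 0 ≤ c) (hc : c < 1) : ∃ i0 : ℕ, 1 ≤ i0 ∧
    ∀ (J : ℕ) (C0 A A' : ℝ), 0 ≤ C0 → ∃ C : ℝ, 0 ≤ C ∧
    ∀ (n T : ℕ) (a : ℕ → ℕ → ℝ), T ≤ q * n + q → (∀ i t, 0 ≤ a i t) →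
      (∀ t < T, ∀ i, 1 ≤ i → i ≤ J →
        a i (t + 1) ≤ 1 / 2 * a i t + C0 * hiSum (fun j => a j t) i) →
      (∀ t < T, ∀ i, 1 ≤ i → i ≤ J →
        a i t ≤ Lam * a i (t + 1) + C0 * hiSum (fun j => a j (t + 1)) i) →
      (∀ i, 1 ≤ i → i ≤ J → a i 0 ≤ A) → (∀ i, 1 ≤ i → i ≤ J → a i T ≤ A' * c ^ (i * T)) →
      ∀ t, n ≤ t → t ≤ T → ∀ i, i0 ≤ i → i ≤ J → a i t ≤ C * Real.exp (-K * n) := by
  obtain ⟨k0, hk0⟩ : ∃ k0 : ℕ, Lam * (3 / 4) ^ k0 ≤ 1 / 2 := by
    obtain ⟨k0, h⟩ := exists_pow_le (c := 3 / 4) (ε := 1 / (2 * (|Lam| + 1))) (by norm_num)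
      (by positivity)
    refine ⟨k0, ?_⟩
    have h1 : Lam ≤ |Lam| + 1 := (le_abs_self _).trans (by linarith)
    calc Lam * (3 / 4) ^ k0 ≤ (|Lam| + 1) * (1 / (2 * (|Lam| + 1))) :=
          mul_le_mul h1 h (by positivity) (by positivity)
      _ = 1 / 2 := by field_simp
  obtain ⟨k1, hk1⟩ := exists_pow_le (c := 3 / 4) (by norm_num) (Real.exp_pos (-K))
  set k := k0 * q + k1 with hk
  set P := k0 + k + 1 with hP
  obtain ⟨i1, hi1⟩ := exists_pow_le (ε := (3 / 4) ^ P) hc (by positivity)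
  refine ⟨i1 * P ^ k + 1, by omega, fun J C0 A A' hC0 => ?_⟩
  obtain ⟨M, hM, hf⟩ := forward_seq J C0 A hC0
  obtain ⟨C, hC, hb⟩ := backward_seq hk0 hc0 hc.le hi1 (by omega) J C0 M A' hC0 hM k (by omega)
  refine ⟨C * (4 / 3) ^ (k0 * q), by positivity, fun n T a hT ha r1 r2 hA hA' t h1 h2 i h3 h4 => ?_⟩
  refine (hb T a ha (hf T a ha hA r1) r2 hA' t h2 i (by omega) (by omega) h4).trans ?_
  rw [mul_assoc]
  refine mul_le_mul_of_nonneg_left ?_ hC
  have e1 : ((3 : ℝ) / 4) ^ ((k0 + k) * t) ≤ (3 / 4) ^ (k0 * q * n) * ((3 / 4) ^ k1) ^ n := by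
    rw [← pow_mul, ← pow_add, ← add_mul, ← hk]
    exact pow_le_pow_of_le_one (by norm_num) (by norm_num) (Nat.mul_le_mul (by omega) h1)
  have e2 : ((4 : ℝ) / 3) ^ (k0 * T) ≤ (4 / 3) ^ (k0 * q * n) * (4 / 3) ^ (k0 * q) := by
    rw [← pow_add, mul_assoc, ← mul_add]
    exact pow_le_pow_right₀ (by norm_num) (Nat.mul_le_mul_left _ hT)
  have e3 : (((3 : ℝ) / 4) ^ k1) ^ n ≤ Real.exp (-K * n) := by
    rw [mul_comm, Real.exp_nat_mul]
    exact pow_le_pow_left₀ (by positivity) hk1 _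
  have e4 : ((3 : ℝ) / 4) ^ (k0 * q * n) * (4 / 3) ^ (k0 * q * n) = 1 := by
    rw [← mul_pow]
    norm_num
  calc wgt k0 k T t ≤ (3 / 4) ^ (k0 * q * n) * ((3 / 4) ^ k1) ^ n *
        ((4 / 3) ^ (k0 * q * n) * (4 / 3) ^ (k0 * q)) :=
        mul_le_mul e1 e2 (by positivity) (by positivity)
    _ = (3 / 4) ^ (k0 * q * n) * (4 / 3) ^ (k0 * q * n) *
        ((4 / 3) ^ (k0 * q) * ((3 / 4) ^ k1) ^ n) := by ring
    _ ≤ _ := by
        rw [e4, one_mul]
        exact mul_le_mul_of_nonneg_left e3 (by positivity)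

/-! ### the formula of Faa di Bruno -/

section Comp

variable {E F G : Type*} [NormedAddCommGroup E] [NormedSpace ℝ E] [NormedAddCommGroup F]
  [NormedSpace ℝ F] [NormedAddCommGroup G] [NormedSpace ℝ G]

theorem norm_taylorComp_le (Q : FormalMultilinearSeries ℝ E G) (p : FormalMultilinearSeries ℝ F E)
    {i : ℕ} {L C0 : ℝ} (hi : 1 ≤ i) (hL : ‖Q 1‖ ≤ L) (hQ : ∀ j, 2 ≤ j → j ≤ i → ‖Q j‖ ≤ C0) :
    ‖Q.taylorComp p i‖ ≤ L * ‖p i‖ + C0 * hiSum (fun j => ‖p j‖) i := by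
  classical
  have hL0 : 0 ≤ L := (norm_nonneg _).trans hL
  have h1 : ∀ c : OrderedFinpartition i, ‖Q.compAlongOrderedFinpartition p c‖ ≤
      (if c.length = 1 then L * ‖p i‖ else 0) +
        C0 * (if c.length = 1 then 0 else ∏ m, ‖p (c.partSize m)‖) := by
    intro c
    refine (c.norm_compAlongOrderedFinpartition_le _ _).trans ?_
    split_ifs with h
    · have e1 : ‖Q c.length‖ = ‖Q 1‖ := congrArg (fun j => ‖Q j‖) h
      have e2 : ∏ m, ‖p (c.partSize m)‖ = ‖p i‖ := by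
        have : ∀ m, ‖p (c.partSize m)‖ = ‖p i‖ := fun m =>
          congrArg (fun j => ‖p j‖) (ofp_size_of_one c h m)
        simp [this, h]
      rw [e1, e2, mul_zero, add_zero]
      exact mul_le_mul_of_nonneg_right hL (norm_nonneg _)
    · rw [zero_add]
      exact mul_le_mul_of_nonneg_right
        (hQ _ (lt_of_le_of_ne (c.length_pos hi) (Ne.symm h)) c.length_le)
        (Finset.prod_nonneg fun _ _ => norm_nonneg _)
  refine (norm_sum_le _ _).trans ((Finset.sum_le_sum fun c _ => h1 c).trans ?_)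
  rw [Finset.sum_add_distrib, ← Finset.mul_sum, ← Finset.sum_filter, Finset.sum_const,
    nsmul_eq_mul]
  have h2 : (Finset.univ.filter fun c : OrderedFinpartition i => c.length = 1).card ≤ 1 :=
    Finset.card_le_one.2 fun c hc c' hc' =>
      ofp_one_uniq c c' (Finset.mem_filter.1 hc).2 (Finset.mem_filter.1 hc').2
  exact add_le_add (mul_le_of_le_one_left (mul_nonneg hL0 (norm_nonneg _)) (by exact_mod_cast h2))
    le_rfl

theorem norm_taylorComp_small (Q : FormalMultilinearSeries ℝ E G)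
    (p : FormalMultilinearSeries ℝ F E) {i N i0 P : ℕ} {C0 M η ε : ℝ} (hi : 1 ≤ i) (hN : i ≤ N)
    (hM : 1 ≤ M) (hη : 0 ≤ η) (hη1 : η ≤ 1) (hε : 0 ≤ ε) (hQ : ∀ j, 1 ≤ j → j ≤ i → ‖Q j‖ ≤ C0)
    (h1 : ∀ j, 1 ≤ j → j ≤ i → ‖p j‖ ≤ M * η) (h2 : ∀ j, i0 ≤ j → 1 ≤ j → j ≤ i → ‖p j‖ ≤ ε)
    (hP : i0 * P ≤ i) : ‖Q.taylorComp p i‖ ≤ C0 * (nPart N * M ^ N) * (ε + η ^ P) := by
  have hM0 : 0 ≤ M := zero_le_one.trans hM
  have hC0 : 0 ≤ C0 := (norm_nonneg _).trans (hQ 1 le_rfl hi)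
  have hb : 0 ≤ ε + η ^ P := by positivity
  calc ‖Q.taylorComp p i‖ ≤ ∑ _c : OrderedFinpartition i, C0 * (M ^ i * (ε + η ^ P)) := by
        refine (norm_sum_le _ _).trans (Finset.sum_le_sum fun c _ => ?_)
        refine (c.norm_compAlongOrderedFinpartition_le _ _).trans ?_
        have := ofp_prod_le (a := fun j => ‖p j‖) (d := 0) c hi hM hη hη1 hε
          (fun _ => norm_nonneg _) (fun m => h1 _ (c.partSize_pos m) (c.partSize_le m))
          (fun m hm => h2 _ hm (c.partSize_pos m) (c.partSize_le m)) hP (c.length_pos hi)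
        rw [pow_zero, one_mul] at this
        exact mul_le_mul (hQ _ (c.length_pos hi) c.length_le) this
          (Finset.prod_nonneg fun _ _ => norm_nonneg _) hC0
    _ = C0 * ((Fintype.card (OrderedFinpartition i) : ℝ) * M ^ i) * (ε + η ^ P) := by
        simp only [Finset.sum_const, Finset.card_univ, nsmul_eq_mul]
        ring
    _ ≤ _ := mul_le_mul_of_nonneg_right (mul_le_mul_of_nonneg_left (mul_le_mul (card_le_nPart hN)
          (pow_le_pow_right₀ hM hN) (by positivity) (nPart_nonneg N)) hC0) hb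

/-- the jets of a composite only depend on the jets -/
theorem taylorComp_congr (Q : FormalMultilinearSeries ℝ E G)
    {p p' : FormalMultilinearSeries ℝ F E} {i : ℕ} (h : ∀ j, 1 ≤ j → j ≤ i → p j = p' j) :
    Q.taylorComp p i = Q.taylorComp p' i := by
  refine Finset.sum_congr rfl fun c _ => ?_
  unfold FormalMultilinearSeries.compAlongOrderedFinpartition
  congr 1
  exact funext fun m => h _ (c.partSize_pos m) (c.partSize_le m)

/-- one step of the recursion, for maps -/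
theorem norm_iter_comp_le {ph : E → G} {p : F → E} {s : F} {i : ℕ} {L C0 : ℝ} (hi : 1 ≤ i)
    (hph : ContDiffAt ℝ i ph (p s)) (hp : ContDiffAt ℝ i p s) (hL : ‖fderiv ℝ ph (p s)‖ ≤ L)
    (hQ : ∀ j, 2 ≤ j → j ≤ i → ‖iteratedFDeriv ℝ j ph (p s)‖ ≤ C0) :
    ‖iteratedFDeriv ℝ i (ph ∘ p) s‖ ≤
      L * ‖iteratedFDeriv ℝ i p s‖ + C0 * hiSum (fun j => ‖iteratedFDeriv ℝ j p s‖) i := by
  rw [iteratedFDeriv_comp hph hp le_rfl]
  exact norm_taylorComp_le (ftaylorSeries ℝ ph (p s)) (ftaylorSeries ℝ p s) hi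
    ((norm_iteratedFDeriv_one ph).trans_le hL) hQ

/-- high derivatives of `ph ∘ p` are small when the high derivatives of `p` are very small and all
derivatives of `p` are small -/
theorem norm_iter_comp_small {ph : E → G} {p : F → E} {s : F} {i N i0 P : ℕ} {C0 M η ε : ℝ}
    (hi : 1 ≤ i) (hN : i ≤ N) (hM : 1 ≤ M) (hη : 0 ≤ η) (hη1 : η ≤ 1) (hε : 0 ≤ ε)
    (hph : ContDiffAt ℝ i ph (p s)) (hp : ContDiffAt ℝ i p s)
    (hQ : ∀ j, 1 ≤ j → j ≤ i → ‖iteratedFDeriv ℝ j ph (p s)‖ ≤ C0)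
    (h1 : ∀ j, 1 ≤ j → j ≤ i → ‖iteratedFDeriv ℝ j p s‖ ≤ M * η)
    (h2 : ∀ j, i0 ≤ j → 1 ≤ j → j ≤ i → ‖iteratedFDeriv ℝ j p s‖ ≤ ε) (hP : i0 * P ≤ i) :
    ‖iteratedFDeriv ℝ i (ph ∘ p) s‖ ≤ C0 * (nPart N * M ^ N) * (ε + η ^ P) := by
  rw [iteratedFDeriv_comp hph hp le_rfl]
  exact norm_taylorComp_small (ftaylorSeries ℝ ph (p s)) (ftaylorSeries ℝ p s) hi hN hM hη hη1 hε
    hQ h1 h2 hP

end Comp

/-! ### curves under contractions -/

section Win

variable {E F G : Type*} [NormedAddCommGroup E] [NormedSpace ℝ E] [NormedAddCommGroup F]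
  [NormedSpace ℝ F] [NormedAddCommGroup G] [NormedSpace ℝ G]

/-- `p'` has the `J`-jet of `th ∘ p`, where `th` contracts to first order -/
structure FwdStep (J : ℕ) (C0 : ℝ) (th : E → E) (p p' : F → E) : Prop where
  sm : ContDiffAt ℝ J th 0
  d1 : ‖fderiv ℝ th 0‖ ≤ 1 / 2
  dj : ∀ i, 2 ≤ i → i ≤ J → ‖iteratedFDeriv ℝ i th 0‖ ≤ C0
  p0 : p 0 = 0
  psm : ContDiffAt ℝ J p 0
  jet : ∀ i, 1 ≤ i → i ≤ J → iteratedFDeriv ℝ i p' 0 = iteratedFDeriv ℝ i (th ∘ p) 0

/-- the same with a local left inverse `th'` of `th` -/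
structure WinStep (J : ℕ) (Lam C0 : ℝ) (th th' : E → E) (p p' : F → E) : Prop
    extends FwdStep J C0 th p p' where
  th0 : th 0 = 0
  sm' : ContDiffAt ℝ J th' 0
  inv : ∀ᶠ y in 𝓝 (0 : E), th' (th y) = y
  d1' : ‖fderiv ℝ th' 0‖ ≤ Lam
  dj' : ∀ i, 2 ≤ i → i ≤ J → ‖iteratedFDeriv ℝ i th' 0‖ ≤ C0

variable {J : ℕ} {Lam C0 : ℝ} {th th' : E → E} {p p' : F → E}

theorem FwdStep.fwd (h : FwdStep J C0 th p p') {i : ℕ} (h1 : 1 ≤ i) (h2 : i ≤ J) :
    ‖iteratedFDeriv ℝ i p' 0‖ ≤ 1 / 2 * ‖iteratedFDeriv ℝ i p 0‖ +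
      |C0| * hiSum (fun j => ‖iteratedFDeriv ℝ j p 0‖) i := by
  have hi : (i : WithTop ℕ∞) ≤ J := by exact_mod_cast h2
  rw [h.jet i h1 h2]
  refine norm_iter_comp_le h1 ?_ (h.psm.of_le hi) ?_ fun j j1 j2 => ?_ <;> rw [h.p0]
  exacts [h.sm.of_le hi, h.d1, (h.dj j j1 (j2.trans h2)).trans (le_abs_self _)]

theorem WinStep.jet' (h : WinStep J Lam C0 th th' p p') {i : ℕ} (h2 : i ≤ J) :
    iteratedFDeriv ℝ i p 0 = (ftaylorSeries ℝ th' 0).taylorComp (ftaylorSeries ℝ p' 0) i := by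
  have hi : (i : WithTop ℕ∞) ≤ J := by exact_mod_cast h2
  have e0 : (th ∘ p) 0 = 0 := by simp [h.p0, h.th0]
  have c1 : ContDiffAt ℝ J (th ∘ p) 0 := ContDiffAt.comp 0 (by rw [h.p0]; exact h.sm) h.psm
  have e1 : th' ∘ (th ∘ p) =ᶠ[𝓝 0] p := by
    have : Tendsto p (𝓝 0) (𝓝 0) := by simpa [ContinuousAt, h.p0] using h.psm.continuousAt
    exact this.eventually h.inv
  rw [← (e1.iteratedFDeriv ℝ i).eq_of_nhds,
    iteratedFDeriv_comp (by rw [e0]; exact h.sm') c1 hi, e0]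
  exact taylorComp_congr _ fun j j1 j2 => (h.jet j j1 (j2.trans h2)).symm

theorem WinStep.bwd (h : WinStep J Lam C0 th th' p p') {i : ℕ} (h1 : 1 ≤ i) (h2 : i ≤ J) :
    ‖iteratedFDeriv ℝ i p 0‖ ≤ Lam * ‖iteratedFDeriv ℝ i p' 0‖ +
      |C0| * hiSum (fun j => ‖iteratedFDeriv ℝ j p' 0‖) i := by
  rw [h.jet' h2]
  exact norm_taylorComp_le (ftaylorSeries ℝ th' 0) (ftaylorSeries ℝ p' 0) h1
    ((norm_iteratedFDeriv_one th').trans_le h.d1')
    fun j j1 j2 => (h.dj' j j1 (j2.trans h2)).trans (le_abs_self _)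

variable (E F) in
/-- FORWARD : the jets decay like `(3/4)^t` -/
theorem forward (J : ℕ) (C0 A : ℝ) : ∃ C : ℝ, 1 ≤ C ∧
    ∀ (T : ℕ) (th : ℕ → E → E) (p : ℕ → F → E),
      (∀ t < T, FwdStep J C0 (th t) (p t) (p (t + 1))) →
      (∀ i, 1 ≤ i → i ≤ J → ‖iteratedFDeriv ℝ i (p 0) 0‖ ≤ A) →
      ∀ t ≤ T, ∀ i, 1 ≤ i → i ≤ J → ‖iteratedFDeriv ℝ i (p t) 0‖ ≤ C * (3 / 4) ^ t := by
  obtain ⟨M, hM, h⟩ := forward_seq J |C0| A (abs_nonneg _)
  exact ⟨M, hM, fun T th p hs hA => h T (fun i t => ‖iteratedFDeriv ℝ i (p t) 0‖)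
    (fun _ _ => norm_nonneg _) hA fun t ht i h1 h2 => (hs t ht).fwd h1 h2⟩

variable (E F) in
/-- WINDOW : if the jets at the time `T ≤ q n + q` are geometrically small, then the high jets
are `≤ C exp (-K n)` at all times in `[n, T]` -/
theorem window (Lam K c : ℝ) (q : ℕ) (hc0 : 0 ≤ c) (hc : c < 1) : ∃ i0 : ℕ, 1 ≤ i0 ∧
    ∀ (J : ℕ) (C0 A A' : ℝ), ∃ C : ℝ, 0 ≤ C ∧
    ∀ (n T : ℕ) (th th' : ℕ → E → E) (p : ℕ → F → E), T ≤ q * n + q →
      (∀ t < T, WinStep J Lam C0 (th t) (th' t) (p t) (p (t + 1))) →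
      (∀ i, 1 ≤ i → i ≤ J → ‖iteratedFDeriv ℝ i (p 0) 0‖ ≤ A) →
      (∀ i, 1 ≤ i → i ≤ J → ‖iteratedFDeriv ℝ i (p T) 0‖ ≤ A' * c ^ (i * T)) →
      ∀ t, n ≤ t → t ≤ T → ∀ i, i0 ≤ i → i ≤ J →
        ‖iteratedFDeriv ℝ i (p t) 0‖ ≤ C * Real.exp (-K * n) := by
  obtain ⟨i0, hi0, h⟩ := window_seq Lam K c q hc0 hc
  refine ⟨i0, hi0, fun J C0 A A' => ?_⟩
  obtain ⟨C, hC, h⟩ := h J |C0| A A' (abs_nonneg _)
  exact ⟨C, hC, fun n T th th' p hT hs hA hA' => h n T (fun i t => ‖iteratedFDeriv ℝ i (p t) 0‖)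
    hT (fun _ _ => norm_nonneg _) (fun t ht i h1 h2 => (hs t ht).fwd h1 h2)
    (fun t ht i h1 h2 => (hs t ht).bwd h1 h2) hA hA'⟩

end Win

/-! ### polynomial maps -/

section Poly

variable {E F G : Type*} [NormedAddCommGroup E] [NormedSpace ℝ E] [NormedAddCommGroup F]
  [NormedSpace ℝ F] [NormedAddCommGroup G] [NormedSpace ℝ G]

/-- bounds go down from the top derivative on a ball -/
theorem norm_iter_le_of_top {f : F → G} {N : ℕ} {x : F} {R B : ℝ} (hR : 0 ≤ R)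
    (hf : ∀ s ∈ closedBall x R, ContDiffAt ℝ N f s)
    (hN : ∀ s ∈ closedBall x R, ‖iteratedFDeriv ℝ N f s‖ ≤ B) (d : ℕ) :
    ∀ j, j + d = N → (∀ k, j ≤ k → k < N → ‖iteratedFDeriv ℝ k f x‖ ≤ B) →
      ∀ s ∈ closedBall x R, ‖iteratedFDeriv ℝ j f s‖ ≤ (1 + R) ^ d * B := by
  have hB : 0 ≤ B := (norm_nonneg _).trans (hN x (mem_closedBall_self hR))
  induction d with
  | zero =>
    rintro j rfl _ s hs
    simpa using hN s hs
  | succ d ih =>
    intro j hj h0 s hs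
    have h1 := ih (j + 1) (by omega) fun k k1 k2 => h0 k (by omega) k2
    have hlt : (j : WithTop ℕ∞) < N := by exact_mod_cast (by omega : j < N)
    have h2 := (convex_closedBall x R).norm_image_sub_le_of_norm_fderiv_le
      (f := iteratedFDeriv ℝ j f) (C := (1 + R) ^ d * B)
      (fun y hy => (hf y hy).differentiableAt_iteratedFDeriv hlt)
      (fun y hy => by rw [norm_fderiv_iteratedFDeriv]; exact h1 y hy)
      (mem_closedBall_self hR) hs
    have h3 : ‖s - x‖ ≤ R := mem_closedBall_iff_norm.1 hs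
    have h4 : (1 + R) ^ d * B * ‖s - x‖ ≤ (1 + R) ^ d * B * R :=
      mul_le_mul_of_nonneg_left h3 (by positivity)
    have h5 : B ≤ (1 + R) ^ d * B := le_mul_of_one_le_left hB (one_le_pow₀ (by linarith))
    have h6 := h0 j le_rfl (by omega)
    have h7 := norm_le_norm_add_norm_sub' (iteratedFDeriv ℝ j f s) (iteratedFDeriv ℝ j f x)
    rw [pow_succ]
    nlinarith

/-- a polynomial map of degree at most `J` -/
structure IsPoly (J : ℕ) (p : F → E) : Prop where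
  sm : ContDiff ℝ ∞ p
  top : ∀ s, iteratedFDeriv ℝ (J + 1) p s = 0

variable {J : ℕ} {p p' : F → E}

theorem IsPoly.at (h : IsPoly J p) (N : ℕ) (s : F) : ContDiffAt ℝ N p s :=
  (h.sm.of_le (by exact_mod_cast le_top)).contDiffAt

theorem IsPoly.iter_zero (h : IsPoly J p) {k : ℕ} (hk : J < k) (s : F) :
    iteratedFDeriv ℝ k p s = 0 := by
  induction hk generalizing s with
  | refl => exact h.top s
  | step _ ih =>
    rw [← norm_eq_zero, ← norm_fderiv_iteratedFDeriv, funext ih, fderiv_fun_const]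
    exact ContinuousLinearMap.opNorm_zero

/-- the derivatives of a polynomial on a ball are bounded by those at the centre -/
theorem IsPoly.norm_iter_le (h : IsPoly J p) {x : F} {R B : ℝ} {j : ℕ} (hB : 0 ≤ B)
    (h0 : ∀ k, j ≤ k → k ≤ J → ‖iteratedFDeriv ℝ k p x‖ ≤ B) {s : F} (hs : s ∈ closedBall x R) :
    ‖iteratedFDeriv ℝ j p s‖ ≤ (1 + R) ^ (J + 1) * B := by
  have hR : 0 ≤ R := dist_nonneg.trans (mem_closedBall.1 hs)
  rcases le_or_gt j J with hj | hj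
  · refine (norm_iter_le_of_top (N := J + 1) hR (fun s _ => h.at _ s)
      (fun s _ => by rw [h.top, norm_zero]; exact hB) (J + 1 - j) j (by omega)
      (fun k k1 k2 => h0 k k1 (by omega)) s hs).trans ?_
    exact mul_le_mul_of_nonneg_right (pow_le_pow_right₀ (by linarith) (by omega)) hB
  · rw [h.iter_zero hj, norm_zero]
    positivity

theorem IsPoly.norm_le (h : IsPoly J p) {R η : ℝ} (hη : 0 ≤ η) (hp : p 0 = 0)
    (h0 : ∀ k, 1 ≤ k → k ≤ J → ‖iteratedFDeriv ℝ k p 0‖ ≤ η) {s : F}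
    (hs : s ∈ closedBall (0 : F) R) : ‖p s‖ ≤ (1 + R) ^ (J + 1) * η := by
  have := h.norm_iter_le (j := 0) hη (fun k _ k2 => by
    rcases Nat.eq_zero_or_pos k with rfl | hk
    · rw [norm_iteratedFDeriv_zero, hp, norm_zero]
      exact hη
    · exact h0 k hk k2) hs
  rwa [norm_iteratedFDeriv_zero] at this

/-- the constant of the estimates on a ball -/
def polyC (J N : ℕ) (C0 M R : ℝ) : ℝ :=
  C0 * (nPart N * ((1 + R) ^ (J + 1) * M) ^ N) * (1 + R) ^ (J + 1)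

/-- all derivatives of order `i ≥ i0 P` (also `i > J`) of `ph ∘ p`, at every point of a ball -/
theorem IsPoly.comp_small (h : IsPoly J p) {ph : E → G} {x s : F} {i N i0 P : ℕ}
    {C0 M R η ε : ℝ} (hs : s ∈ closedBall x R) (hi : 1 ≤ i) (hN : i ≤ N) (hM : 1 ≤ M)
    (hη : 0 ≤ η) (hη1 : η ≤ 1) (hε : 0 ≤ ε) (hph : ContDiffAt ℝ i ph (p s))
    (hQ : ∀ j, 1 ≤ j → j ≤ i → ‖iteratedFDeriv ℝ j ph (p s)‖ ≤ C0)
    (h1 : ∀ j, 1 ≤ j → j ≤ J → ‖iteratedFDeriv ℝ j p x‖ ≤ M * η)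
    (h2 : ∀ j, i0 ≤ j → 1 ≤ j → j ≤ J → ‖iteratedFDeriv ℝ j p x‖ ≤ ε) (hP : i0 * P ≤ i) :
    ‖iteratedFDeriv ℝ i (ph ∘ p) s‖ ≤ polyC J N C0 M R * (ε + η ^ P) := by
  have hR : 0 ≤ R := dist_nonneg.trans (mem_closedBall.1 hs)
  have hM0 : 0 ≤ M := zero_le_one.trans hM
  have hC0 : 0 ≤ C0 := (norm_nonneg _).trans (hQ 1 le_rfl hi)
  have hr : 1 ≤ (1 + R) ^ (J + 1) := one_le_pow₀ (by linarith)
  have := norm_iter_comp_small (M := (1 + R) ^ (J + 1) * M) (ε := (1 + R) ^ (J + 1) * ε)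
    (i0 := i0) hi hN (one_le_mul_of_one_le_of_one_le hr hM) hη hη1 (by positivity) hph (h.at i s) hQ
    (fun j j1 _ => by
      rw [mul_assoc]
      exact h.norm_iter_le (by positivity) (fun k k1 k2 => h1 k (j1.trans k1) k2) hs)
    (fun j j0 j1 _ => h.norm_iter_le hε (fun k k1 k2 => h2 k (j0.trans k1) (j1.trans k1) k2) hs) hP
  refine this.trans ?_
  unfold polyC
  rw [mul_assoc _ ((1 + R) ^ (J + 1))]
  refine mul_le_mul_of_nonneg_left ?_
    (mul_nonneg hC0 (mul_nonneg (nPart_nonneg _) (by positivity)))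
  rw [mul_add]
  exact add_le_add le_rfl (le_mul_of_one_le_left (by positivity) hr)

/-- the defect `ph ∘ p - p'` of two polynomials with the same `J`-jet is small in every `C^i`,
`i ≤ N`, on a ball -/
theorem IsPoly.defect_small {p' : F → G} (h : IsPoly J p) (h' : IsPoly J p') {ph : E → G} {x : F}
    {N i0 P : ℕ} {C0 M R η ε : ℝ} (hN : J + 1 ≤ N) (hM : 1 ≤ M) (hη : 0 ≤ η) (hη1 : η ≤ 1)
    (hε : 0 ≤ ε) (hph : ∀ s ∈ closedBall x R, ContDiffAt ℝ N ph (p s))
    (hQ : ∀ s ∈ closedBall x R, ∀ j, 1 ≤ j → j ≤ N → ‖iteratedFDeriv ℝ j ph (p s)‖ ≤ C0)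
    (hjet : ∀ j ≤ J, iteratedFDeriv ℝ j p' x = iteratedFDeriv ℝ j (ph ∘ p) x)
    (h1 : ∀ j, 1 ≤ j → j ≤ J → ‖iteratedFDeriv ℝ j p x‖ ≤ M * η)
    (h2 : ∀ j, i0 ≤ j → 1 ≤ j → j ≤ J → ‖iteratedFDeriv ℝ j p x‖ ≤ ε) (hP : i0 * P ≤ J + 1)
    {i : ℕ} (hi : i ≤ N) {s : F} (hs : s ∈ closedBall x R) :
    ‖iteratedFDeriv ℝ i (fun y => ph (p y) - p' y) s‖ ≤
      (1 + R) ^ (J + 1) * (polyC J N C0 M R * (ε + η ^ P)) := by
  have hR : 0 ≤ R := dist_nonneg.trans (mem_closedBall.1 hs)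
  have hc : ∀ y ∈ closedBall x R, ContDiffAt ℝ N (ph ∘ p) y := fun y hy =>
    (hph y hy).comp y (h.at N y)
  have hsub : ∀ j ≤ N, ∀ y ∈ closedBall x R, iteratedFDeriv ℝ j (fun y => ph (p y) - p' y) y =
      iteratedFDeriv ℝ j (ph ∘ p) y - iteratedFDeriv ℝ j p' y := fun j hj y hy =>
    iteratedFDeriv_sub_apply ((hc y hy).of_le (by exact_mod_cast hj)) (h'.at j y)
  have hhi : ∀ j, J + 1 ≤ j → j ≤ N → ∀ y ∈ closedBall x R,
      ‖iteratedFDeriv ℝ j (fun y => ph (p y) - p' y) y‖ ≤ polyC J N C0 M R * (ε + η ^ P) := by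
    intro j j1 j2 y hy
    rw [hsub j j2 y hy, h'.iter_zero j1, sub_zero]
    exact h.comp_small hy (by omega) j2 hM hη hη1 hε ((hph y hy).of_le (by exact_mod_cast j2))
      (fun k k1 k2 => hQ y hy k k1 (k2.trans j2)) h1 h2 (hP.trans j1)
  have hB : 0 ≤ polyC J N C0 M R * (ε + η ^ P) := (norm_nonneg _).trans (hhi _ le_rfl hN s hs)
  rcases le_or_gt i J with hj | hj
  · refine (norm_iter_le_of_top (f := fun y => ph (p y) - p' y) (N := J + 1) hR
      (fun y hy => ((hc y hy).of_le (by exact_mod_cast hN)).sub (h'.at _ y))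
      (hhi _ le_rfl hN) (J + 1 - i) i (by omega) (fun k _ k2 => ?_) s hs).trans
      (mul_le_mul_of_nonneg_right (pow_le_pow_right₀ (by linarith) (by omega)) hB)
    rw [hsub k (by omega) x (mem_closedBall_self hR), hjet k (by omega), sub_self, norm_zero]
    exact hB
  · exact (hhi i hj hi s hs).trans (le_mul_of_one_le_left hB (one_le_pow₀ (by linarith)))

end Poly

end Vale.Agent.P207Z.An
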